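import Mathlib

/-!
Lipschitz-free spaces and the bounded approximation property.
-/

namespace Vale.Agent.P090

noncomputable section

variable {M : Type} [MetricSpace M]

/-- The real Lipschitz functions on `M` that vanish at the base point `o`, as a linear
subspace of all functions. -/
def lipSub (o : M) : Submodule ℝ (M → ℝ) where
  carrier := {f | f o = 0 ∧ ∃ K : ℝ, ∀ x y, |f x - f y| ≤ K * dist x y}
  zero_mem' := ⟨rfl, 0, by simp⟩
  add_mem' := by
    rintro f g ⟨hf, K, hK⟩ ⟨hg, L, hL⟩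
    refine ⟨by simp [hf, hg], K + L, fun x y => ?_⟩
    have h : (f + g) x - (f + g) y = (f x - f y) + (g x - g y) := by simp only [Pi.add_apply]; ring
    rw [h, add_mul]
    exact (abs_add_le _ _).trans (add_le_add (hK x y) (hL x y))
  smul_mem' := by
    rintro c f ⟨hf, K, hK⟩
    refine ⟨by simp [hf], |c| * K, fun x y => ?_⟩
    have h : (c • f) x - (c • f) y = c * (f x - f y) := by
      simp only [Pi.smul_apply, smul_eq_mul]; ring
    rw [h, abs_mul, mul_assoc]
    exact mul_le_mul_of_nonneg_left (hK x y) (abs_nonneg c)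

/-- The space `Lip₀(M)`; it carries the Lipschitz norm defined below. -/
def Lip0 (o : M) : Type := ↥(lipSub o)

instance (o : M) : AddCommGroup (Lip0 o) := inferInstanceAs (AddCommGroup ↥(lipSub o))
instance (o : M) : Module ℝ (Lip0 o) := inferInstanceAs (Module ℝ ↥(lipSub o))

/-- The underlying function of an element of `Lip₀(M)`. -/
def Lip0.fn {o : M} (f : Lip0 o) : M → ℝ := Subtype.val f

/-- The norm of `f` is its Lipschitz constant, the least `K ≥ 0` with
`|f x - f y| ≤ K d(x,y)`. -/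
instance (o : M) : Norm (Lip0 o) :=
  ⟨fun f => sInf {K : ℝ | 0 ≤ K ∧ ∀ x y, |f.fn x - f.fn y| ≤ K * dist x y}⟩

theorem Lip0.norm_def {o : M} (f : Lip0 o) :
    ‖f‖ = sInf {K : ℝ | 0 ≤ K ∧ ∀ x y, |f.fn x - f.fn y| ≤ K * dist x y} := rfl

theorem Lip0.norm_le {o : M} (f : Lip0 o) {K : ℝ} (h0 : 0 ≤ K)
    (h : ∀ x y, |f.fn x - f.fn y| ≤ K * dist x y) : ‖f‖ ≤ K :=
  csInf_le ⟨0, fun _ hK => hK.1⟩ ⟨h0, h⟩

theorem Lip0.nonempty {o : M} (f : Lip0 o) :
    {K : ℝ | 0 ≤ K ∧ ∀ x y, |f.fn x - f.fn y| ≤ K * dist x y}.Nonempty := by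
  obtain ⟨K, hK⟩ := f.2.2
  exact ⟨max K 0, le_max_right _ _, fun x y =>
    (hK x y).trans (mul_le_mul_of_nonneg_right (le_max_left _ _) dist_nonneg)⟩

theorem Lip0.norm_nonneg' {o : M} (f : Lip0 o) : 0 ≤ ‖f‖ :=
  le_csInf f.nonempty fun _ hK => hK.1

theorem Lip0.le_norm {o : M} (f : Lip0 o) (x y : M) : |f.fn x - f.fn y| ≤ ‖f‖ * dist x y := by
  rcases eq_or_ne x y with rfl | hxy
  · simp
  · have hd : 0 < dist x y := dist_pos.2 hxy
    rw [← div_le_iff₀ hd]
    exact le_csInf f.nonempty fun K hK => (div_le_iff₀ hd).2 (hK.2 x y)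

theorem Lip0.smul_le {o : M} (c : ℝ) (f : Lip0 o) : ‖c • f‖ ≤ |c| * ‖f‖ := by
  refine Lip0.norm_le _ (mul_nonneg (abs_nonneg c) f.norm_nonneg') fun x y => ?_
  have h : (c • f).fn x - (c • f).fn y = c * (f.fn x - f.fn y) := by
    change c * f.fn x - c * f.fn y = _
    ring
  rw [h, abs_mul, mul_assoc]
  exact mul_le_mul_of_nonneg_left (f.le_norm x y) (abs_nonneg c)

theorem Lip0.core (o : M) : NormedSpace.Core ℝ (Lip0 o) where
  norm_nonneg f := f.norm_nonneg'
  norm_smul c f := by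
    refine le_antisymm (Lip0.smul_le c f) ?_
    rcases eq_or_ne c 0 with rfl | hc
    · simpa using ((0 : ℝ) • f).norm_nonneg'
    · have h := Lip0.smul_le c⁻¹ (c • f)
      rw [smul_smul, inv_mul_cancel₀ hc, one_smul, abs_inv] at h
      have hp : 0 < |c| := abs_pos.2 hc
      calc ‖c‖ * ‖f‖ ≤ |c| * (|c|⁻¹ * ‖c • f‖) := mul_le_mul_of_nonneg_left h hp.le
        _ = ‖c • f‖ := by field_simp
  norm_triangle f g := by
    refine Lip0.norm_le _ (add_nonneg f.norm_nonneg' g.norm_nonneg') fun x y => ?_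
    have h : (f + g).fn x - (f + g).fn y = (f.fn x - f.fn y) + (g.fn x - g.fn y) := by
      change f.fn x + g.fn x - (f.fn y + g.fn y) = _
      ring
    rw [h, add_mul]
    exact (abs_add_le _ _).trans (add_le_add (f.le_norm x y) (g.le_norm x y))
  norm_eq_zero_iff f := by
    constructor
    · intro h
      refine Subtype.ext (funext fun x => ?_)
      have h1 := f.le_norm x o
      have h2 : f.fn o = 0 := f.2.1
      rw [h, h2, zero_mul, sub_zero] at h1
      exact abs_nonpos_iff.1 h1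
    · rintro rfl
      refine le_antisymm (Lip0.norm_le _ le_rfl fun x y => ?_) (Lip0.norm_nonneg' _)
      change |(0 : ℝ) - 0| ≤ _
      simp

instance (o : M) : NormedAddCommGroup (Lip0 o) := NormedAddCommGroup.ofCore (Lip0.core o)
instance (o : M) : NormedSpace ℝ (Lip0 o) := NormedSpace.ofCore (Lip0.core o)

/-- The evaluation functional `δ_x`, an element of the dual of `Lip₀(M)`. -/
def delta (o x : M) : StrongDual ℝ (Lip0 o) :=
  LinearMap.mkContinuous
    { toFun := fun f => f.fn x, map_add' := fun _ _ => rfl, map_smul' := fun _ _ => rfl }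
    (dist x o) fun f => by
      have h1 := f.le_norm x o
      have h2 : f.fn o = 0 := f.2.1
      rw [h2, sub_zero, mul_comm] at h1
      exact h1

/-- The Lipschitz-free space: the norm closure of the span of the `δ_x` in `Lip₀(M)*`. -/
def Free (o : M) : Submodule ℝ (StrongDual ℝ (Lip0 o)) :=
  (Submodule.span ℝ (Set.range (delta o))).topologicalClosure

/-- `inf {d(x,y) : x ≠ y} > 0`. -/
def UniformlyDiscrete (M : Type) [MetricSpace M] : Prop :=
  ∃ c : ℝ, 0 < c ∧ ∀ x y : M, x ≠ y → c ≤ dist x y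

/-- The bounded approximation property. -/
def HasBAP (X : Type) [NormedAddCommGroup X] [NormedSpace ℝ X] : Prop :=
  ∃ lam : ℝ, 1 ≤ lam ∧ ∀ C : Set X, IsCompact C → ∀ ε : ℝ, 0 < ε →
    ∃ T : X →L[ℝ] X, FiniteDimensional ℝ (LinearMap.range (T : X →ₗ[ℝ] X)) ∧ ‖T‖ ≤ lam ∧
      ∀ u ∈ C, ‖T u - u‖ < ε

end

end Vale.Agent.P090
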