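import Vale.Agent.P090.Gap

/-!
The `ℓ¹` Poincaré inequality and the system of Margulis actions with coprime moduli.
-/

namespace Vale.Agent.P090

noncomputable section

open Finset

/-- signed square root -/
def ssq (t : ℝ) : ℝ := √t - √(-t)

theorem ssq_spec (t : ℝ) : ssq t * |ssq t| = t := by
  unfold ssq
  rcases le_total 0 t with h | h
  · rw [Real.sqrt_eq_zero_of_nonpos (neg_nonpos.2 h), sub_zero, abs_of_nonneg (Real.sqrt_nonneg _),
      Real.mul_self_sqrt h]
  · rw [Real.sqrt_eq_zero_of_nonpos h, zero_sub, abs_neg, abs_of_nonneg (Real.sqrt_nonneg _),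
      neg_mul, Real.mul_self_sqrt (neg_nonneg.2 h), neg_neg]

theorem ssq_sq (t : ℝ) : ssq t ^ 2 = |t| := by
  conv_rhs => rw [← ssq_spec t, abs_mul, abs_abs, abs_mul_abs_self]
  ring

theorem ssq_sub (a b : ℝ) : (ssq a - ssq b) ^ 2 ≤ 2 * |a - b| := by
  conv_rhs => rw [← ssq_spec a, ← ssq_spec b]
  generalize ssq a = s
  generalize ssq b = t
  have h1 := le_abs_self (s * |s| - t * |t|)
  have h2 := neg_abs_le (s * |s| - t * |t|)
  generalize abs (s * abs s - t * abs t) = w at *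
  rcases abs_cases s with ⟨hs, hs'⟩ | ⟨hs, hs'⟩ <;> rcases abs_cases t with ⟨ht, ht'⟩ | ⟨ht, ht'⟩ <;>
    rw [hs, ht] at h1 h2 <;> rcases le_total s t with h | h <;> nlinarith [sq_nonneg (s + t)]

theorem l1_poincare {G S : Type} [Fintype G] [Fintype S] (σ : S → G → G) (C : ℝ) (hC : 0 ≤ C)
    (hgap : ∀ f : G → ℝ, ∑ x, f x = 0 → ∑ x, f x ^ 2 ≤ C * ∑ g, ∑ x, (f (σ g x) - f x) ^ 2)
    (P : G → ℝ) : ∃ μ, ∑ x, |P x - μ| ≤ 2 * C * ∑ g, ∑ x, |P (σ g x) - P x| := by
  have hc : Continuous fun μ : ℝ => ∑ x, ssq (P x - μ) := by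
    unfold ssq
    fun_prop
  have hb : ∀ x, |P x| ≤ ∑ y, |P y| := fun x =>
    single_le_sum (f := fun y => |P y|) (fun _ _ => abs_nonneg _) (mem_univ x)
  have h1 : ∑ x, ssq (P x - ∑ y, |P y|) ≤ 0 := sum_nonpos fun x _ => by
    unfold ssq
    rw [Real.sqrt_eq_zero_of_nonpos (by linarith [le_abs_self (P x), hb x])]
    simp
  have h2 : 0 ≤ ∑ x, ssq (P x - -∑ y, |P y|) := sum_nonneg fun x _ => by
    unfold ssq
    rw [Real.sqrt_eq_zero_of_nonpos (x := -_) (by linarith [neg_abs_le (P x), hb x])]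
    simp
  obtain ⟨μ, hμ⟩ := intermediate_value_univ _ _ hc ⟨h1, h2⟩
  refine ⟨μ, ?_⟩
  have h3 := hgap (fun x => ssq (P x - μ)) hμ
  simp only [ssq_sq] at h3
  refine h3.trans ?_
  rw [mul_comm 2 C, mul_assoc]
  refine mul_le_mul_of_nonneg_left ?_ hC
  rw [mul_sum]
  refine sum_le_sum fun g _ => ?_
  rw [mul_sum]
  refine sum_le_sum fun x _ => ?_
  have := ssq_sub (P (σ g x) - μ) (P x - μ)
  rwa [sub_sub_sub_cancel_right] at this

theorem decor {M N : ℕ} [NeZero M] [NeZero N] (hMN : M.Coprime N)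
    (a : ZMod M × ZMod M → ℝ) (ha0 : ∑ h, a h = 0) (ha : ∀ h, |a h| ≤ 1)
    (c : ZMod N × ZMod N → ℝ) (hc : ∀ z, |c z| ≤ 1)
    (P : ZMod M × ZMod M → ZMod N × ZMod N → ℝ) :
    ∑ h, ∑ z, a h * c z * P h z ≤
      24 * ∑ g, ∑ h, ∑ z, |P (act _ g h) (act _ g z) - P h z| := by
  haveI : NeZero (M * N) := ⟨mul_ne_zero (NeZero.ne M) (NeZero.ne N)⟩
  let e := ZMod.chineseRemainder hMN
  let Φ : ZMod (M * N) × ZMod (M * N) ≃ (ZMod M × ZMod M) × (ZMod N × ZMod N) :=
    (Equiv.prodCongr e.toEquiv e.toEquiv).trans (Equiv.prodProdProdComm _ _ _ _)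
  have hΦ : ∀ g x, Φ (act _ g x) = (act _ g (Φ x).1, act _ g (Φ x).2) := by
    intro g x
    fin_cases g <;> simp [Φ, act, actU, actV, actS, actT, Equiv.prodProdProdComm]
  obtain ⟨μ, hμ⟩ := l1_poincare (G := (ZMod M × ZMod M) × (ZMod N × ZMod N))
    (fun g x => (act _ g x.1, act _ g x.2)) 12 (by norm_num) (fun f hf => by
      have h := gap_l2 (fun x => f (Φ x)) (by rw [Φ.sum_comp f]; exact hf)
      rw [Φ.sum_comp fun x => f x ^ 2] at h
      refine h.trans (le_of_eq ?_)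
      congr 1
      refine sum_congr rfl fun g _ => ?_
      simp only [hΦ]
      exact Φ.sum_comp fun x => (f (act _ g x.1, act _ g x.2) - f x) ^ 2)
    (fun x => P x.1 x.2)
  simp only [Fintype.sum_prod_type] at hμ ⊢
  have h1 : ∑ h, ∑ z, a h * c z * P h z = ∑ h, ∑ z, a h * c z * (P h z - μ) := by
    simp only [mul_sub, sum_sub_distrib, mul_assoc, ← mul_sum, ← sum_mul, ha0]
    simp
  simp only [Fintype.sum_prod_type] at h1
  rw [h1]
  refine le_trans ?_ (hμ.trans (le_of_eq (by norm_num)))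
  refine sum_le_sum fun _ _ => sum_le_sum fun _ _ => sum_le_sum fun _ _ => sum_le_sum fun _ _ => ?_
  refine (le_abs_self _).trans ?_
  rw [abs_mul, abs_mul]
  exact mul_le_of_le_one_left (abs_nonneg _) (mul_le_one₀ (ha _) (abs_nonneg _) (hc _))

/-- the abstract properties of the labelled action that are used later -/
def GapSys (Z : Type) (γ : Fin 4 → Z ≃ Z) (c : Z → ℝ) (fx : Z → Z) : Prop :=
  (Set.range fx).Finite ∧ (∀ g z, γ g (fx z) = fx z) ∧ (∀ z, c (fx z) = c z) ∧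
  (∀ z, |c z| ≤ 1) ∧ ∀ F : Set Z, F.Finite →
    ∃ (W : Finset Z) (H : Type) (_ : Fintype H) (ι : H → Z) (a : H → ℝ), Nonempty H ∧
      (∀ z ∈ F, z ∈ W) ∧ (∀ g z, γ g z ∈ W ↔ z ∈ W) ∧ (∀ h, |a h| ≤ 1) ∧
      (Fintype.card H : ℝ) / 3 ≤ ∑ h, a h * c (ι h) ∧
      ∀ P : Z → Z → ℝ, ∑ h, ∑ z ∈ W, a h * c z * P (ι h) z ≤
        24 * ∑ g, ∑ h, ∑ z ∈ W, |P (γ g (ι h)) (γ g z) - P (ι h) z|

/-- moduli of the levels -/
def lev : ℕ → ℕ
  | 0 => 1
  | 1 => 1
  | l + 2 => Nat.fermatNumber l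

instance (l : ℕ) : NeZero (lev l) := ⟨by
  rcases l with _ | _ | l
  · simp [lev]
  · simp [lev]
  · have := Nat.three_le_fermatNumber l
    simp only [lev]
    omega⟩

theorem lev_coprime {L l : ℕ} (h : l < L + 2) : (lev (L + 2)).Coprime (lev l) := by
  rcases l with _ | _ | l
  · simp [lev]
  · simp [lev]
  · exact Nat.coprime_fermatNumber_fermatNumber (by omega)

theorem count_lt {N : ℕ} [NeZero N] (hN : 3 ≤ N) :
    (Fintype.card (ZMod N × ZMod N) : ℝ) / 3 ≤
      ∑ h : ZMod N × ZMod N, (if h.1.val < h.2.val then (1 : ℝ) else 0) := by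
  have h1 : ∑ h : ZMod N × ZMod N, (if h.2.val < h.1.val then (1 : ℝ) else 0) =
      ∑ h : ZMod N × ZMod N, (if h.1.val < h.2.val then (1 : ℝ) else 0) :=
    (Equiv.prodComm _ _).sum_comp fun h : ZMod N × ZMod N =>
      if h.1.val < h.2.val then (1 : ℝ) else 0
  have h2 : ∑ h : ZMod N × ZMod N, (if h.1 = h.2 then (1 : ℝ) else 0) = N := by
    rw [Fintype.sum_prod_type]
    simp
  have h3 : ∑ h : ZMod N × ZMod N, ((if h.1.val < h.2.val then (1 : ℝ) else 0) +
      (if h.2.val < h.1.val then (1 : ℝ) else 0) + (if h.1 = h.2 then (1 : ℝ) else 0)) =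
      ∑ h : ZMod N × ZMod N, (1 : ℝ) := by
    refine sum_congr rfl fun h _ => ?_
    rcases lt_trichotomy h.1.val h.2.val with h4 | h4 | h4
    · have : h.1 ≠ h.2 := fun e => by rw [e] at h4; exact lt_irrefl _ h4
      simp [h4, h4.le.not_gt, this]
    · simp [ZMod.val_injective N h4]
    · have : h.1 ≠ h.2 := fun e => by rw [e] at h4; exact lt_irrefl _ h4
      simp [h4, h4.le.not_gt, this]
  rw [sum_add_distrib, sum_add_distrib, h1, h2] at h3
  simp only [sum_const, card_univ, Fintype.card_prod, ZMod.card, nsmul_eq_mul, mul_one] at h3 ⊢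
  have h5 : (3 : ℝ) ≤ N := by exact_mod_cast hN
  push_cast at h3 ⊢
  nlinarith

theorem exists_gapSys : ∃ (Z : Type) (γ : Fin 4 → Z ≃ Z) (c : Z → ℝ) (fx : Z → Z),
    GapSys Z γ c fx := by
  classical
  let Z := Σ l : ℕ, ZMod (lev l) × ZMod (lev l)
  let lab : Z → Prop := fun z => z.1 = 1 ∨ z.2.1.val < z.2.2.val
  let c : Z → ℝ := fun z => if lab z then 1 else 0
  have hc : ∀ z, |c z| ≤ 1 := fun z => by
    simp only [c]
    split_ifs <;> simp
  have s0 : Subsingleton (ZMod (lev 0) × ZMod (lev 0)) :=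
    inferInstanceAs (Subsingleton (ZMod 1 × ZMod 1))
  have s1 : Subsingleton (ZMod (lev 1) × ZMod (lev 1)) :=
    inferInstanceAs (Subsingleton (ZMod 1 × ZMod 1))
  refine ⟨Z, fun g => Equiv.sigmaCongrRight fun l => act _ g, c,
    fun z => if lab z then ⟨1, 0⟩ else ⟨0, 0⟩, ?_, ?_, ?_, hc, ?_⟩
  · refine (Set.toFinite {(⟨1, 0⟩ : Z), ⟨0, 0⟩}).subset ?_
    rintro _ ⟨z, rfl⟩
    beta_reduce
    split_ifs <;> simp
  · intro g z
    beta_reduce
    split_ifs
    · exact congrArg (Sigma.mk 1) (Subsingleton.elim _ _)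
    · exact congrArg (Sigma.mk 0) (Subsingleton.elim _ _)
  · intro z
    by_cases h : lab z
    · simp only [c, if_pos h]
      simp [lab]
    · simp only [c, if_neg h]
      simp [lab]
  · intro F hF
    obtain ⟨L, hL⟩ := (hF.image Sigma.fst).bddAbove
    have hcL : ∀ h : ZMod (lev (L + 2)) × ZMod (lev (L + 2)),
        c ⟨L + 2, h⟩ = if h.1.val < h.2.val then 1 else 0 := fun h => by
      simp [c, lab]
    refine ⟨(range (L + 2)).sigma fun _ => univ, ZMod (lev (L + 2)) × ZMod (lev (L + 2)),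
      inferInstance, fun h => ⟨L + 2, h⟩, fun h => c ⟨L + 2, h⟩ - c ⟨L + 2, h.swap⟩,
      inferInstance, ?_, ?_, ?_, ?_, ?_⟩
    · intro z hz
      have := hL ⟨z, hz, rfl⟩
      exact mem_sigma.2 ⟨mem_range.2 (by omega), mem_univ _⟩
    · intro g z
      constructor
      · intro h
        exact mem_sigma.2 ⟨(mem_sigma.1 h).1, mem_univ _⟩
      · intro h
        exact mem_sigma.2 ⟨(mem_sigma.1 h).1, mem_univ _⟩
    · intro h
      simp only [hcL]
      split_ifs <;> simp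
    · refine (count_lt (N := lev (L + 2)) (Nat.three_le_fermatNumber L)).trans (le_of_eq ?_)
      refine sum_congr rfl fun h _ => ?_
      simp only [hcL, Prod.fst_swap, Prod.snd_swap]
      split_ifs with h1 h2
      · omega
      · simp
      · simp
      · simp
    · intro P
      have hs : ∀ φ : Z → ℝ, ∑ z ∈ (range (L + 2)).sigma fun _ => univ, φ z =
          ∑ l ∈ range (L + 2), ∑ z, φ ⟨l, z⟩ := fun φ => sum_sigma _ _ _
      have key : ∀ l ∈ range (L + 2), _ := fun l hl => decor (lev_coprime (mem_range.1 hl))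
        (fun h => c ⟨L + 2, h⟩ - c ⟨L + 2, h.swap⟩) (by
          rw [sum_sub_distrib, sub_eq_zero]
          exact ((Equiv.prodComm _ _).sum_comp fun h => c ⟨L + 2, h⟩).symm) (fun h => by
          simp only [hcL]
          split_ifs <;> simp) (fun z => c ⟨l, z⟩) (fun z => hc _)
        (fun h z => P ⟨L + 2, h⟩ ⟨l, z⟩)
      refine le_trans (le_of_eq ?_) ((sum_le_sum key).trans (le_of_eq ?_))
      · rw [sum_comm (s := range (L + 2))]
        exact sum_congr rfl fun h _ => hs _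
      · rw [← mul_sum, sum_comm]
        congr 1
        refine sum_congr rfl fun g _ => ?_
        rw [sum_comm]
        exact sum_congr rfl fun h _ => (hs fun z =>
          |P ((Equiv.sigmaCongrRight fun l => act (ZMod (lev l)) g) ⟨L + 2, h⟩)
            ((Equiv.sigmaCongrRight fun l => act (ZMod (lev l)) g) z) - P ⟨L + 2, h⟩ z|).symm

end

end Vale.Agent.P090
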