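import Vale.Agent.P090.Main

/-!
Choice of the parameters and the final contradiction.
-/

namespace Vale.Agent.P090

noncomputable section

theorem numeric {q lam : ℝ} (hlam : 1 ≤ lam) (hq : 10 ^ 7 * lam ≤ q) :
    3 * lam * q ^ 7 * ((q + 1) / q ^ 9) + ((q + 1) / q ^ 9 + 2 * 1 / q ^ 7) +
      96 * (2 * (5 * q ^ 6 * lam * ((q + 1) / q ^ 9 + 2 * 1 / q ^ 7)) + 48 * q ^ 9 / q ^ 6 *
        (4 * lam * ((q / q ^ 9 * (2 * q ^ 3) + 2 * (q ^ 6 / q / q ^ 9)) + 2 * (2 * q ^ 3) / q ^ 7) +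
        ((q + 2 * (q ^ 6 / q)) + 3 * lam * q ^ 7 *
          (q ^ 6 * (2 * ((q + 1) / q ^ 9)) + 2 * (q + 2 * (q ^ 6 / q)) / q ^ 7)) / q ^ 9)) <
      1 / 3 := by
  have hq1 : 1 ≤ q := by linarith
  have hq0 : 0 < q := by linarith
  obtain ⟨x, hx⟩ : ∃ x, x = q⁻¹ := ⟨_, rfl⟩
  have hx0 : 0 < x := by rw [hx]; positivity
  have hx1 : x ≤ 1 := by rw [hx]; exact inv_le_one_of_one_le₀ hq1
  have hy : lam * x ≤ 1 / 10 ^ 7 := by
    rw [hx, ← div_eq_mul_inv, div_le_div_iff₀ hq0 (by norm_num)]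
    linarith
  have hp : ∀ k : ℕ, x ^ (k + 1) ≤ x := fun k => by
    rw [pow_succ]
    exact mul_le_of_le_one_left hx0.le (pow_le_one₀ hx0.le hx1)
  have hl : ∀ k : ℕ, lam * x ^ (k + 1) ≤ lam * x := fun k =>
    mul_le_mul_of_nonneg_left (hp k) (by linarith)
  have hxl : x ≤ lam * x := le_mul_of_one_le_left hx0.le hlam
  have e : 3 * lam * q ^ 7 * ((q + 1) / q ^ 9) + ((q + 1) / q ^ 9 + 2 * 1 / q ^ 7) +
      96 * (2 * (5 * q ^ 6 * lam * ((q + 1) / q ^ 9 + 2 * 1 / q ^ 7)) + 48 * q ^ 9 / q ^ 6 *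
        (4 * lam * ((q / q ^ 9 * (2 * q ^ 3) + 2 * (q ^ 6 / q / q ^ 9)) + 2 * (2 * q ^ 3) / q ^ 7) +
        ((q + 2 * (q ^ 6 / q)) + 3 * lam * q ^ 7 *
          (q ^ 6 * (2 * ((q + 1) / q ^ 9)) + 2 * (q + 2 * (q ^ 6 / q)) / q ^ 7)) / q ^ 9)) =
      3 * (lam * x + lam * x ^ 2) + (x ^ 8 + x ^ 9 + 2 * x ^ 7) +
        96 * (10 * (lam * x ^ 2 + lam * x ^ 3 + 2 * (lam * x)) +
          192 * (2 * (lam * x ^ 2) + 6 * (lam * x)) +
          48 * (x ^ 5 + 2 * x + 6 * (lam * x ^ 5) + 12 * (lam * x) +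
            6 * (lam * x + lam * x ^ 2))) := by
    rw [hx]
    field_simp
    ring
  rw [e]
  clear e hx
  have a1 : x ^ 5 ≤ x := hp 4
  have a2 : x ^ 7 ≤ x := hp 6
  have a3 : x ^ 8 ≤ x := hp 7
  have a4 : x ^ 9 ≤ x := hp 8
  have a5 : lam * x ^ 2 ≤ lam * x := hl 1
  have a6 : lam * x ^ 3 ≤ lam * x := hl 2
  have a7 : lam * x ^ 5 ≤ lam * x := hl 4
  norm_num at hy
  linarith

theorem not_bap : ¬∀ (M : Type) [MetricSpace M] (o : M), UniformlyDiscrete M → HasBAP (Free o) := by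
  classical
  intro hall
  obtain ⟨Z, γ, c, fx, hG⟩ := exists_gapSys
  let Q : ℕ → ℕ := fun k => 10 ^ 7 * (k + 1)
  have hQ : ∀ k, 0 < Q k := fun k => by positivity
  haveI : ∀ k, NeZero (Q k ^ 9) := fun k => ⟨(pow_pos (hQ k) 9).ne'⟩
  have hQ1 : ∀ k, (1 : ℝ) ≤ Q k := fun k => by exact_mod_cast hQ k
  obtain ⟨M, inst, o, hM, hB⟩ := glue (Y := fun k => Fin (Q k ^ 6) → Pt Z (Q k ^ 9))
    (E := fun k => EE γ fx ((Q k : ℝ) ^ 7)) (D := fun k => ((Q k ^ 9 : ℕ) : ℝ)) (by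
      rintro k y y' w (⟨-, rfl⟩ | ⟨-, rfl⟩)
      · exact le_rfl
      · exact one_le_pow₀ (hQ1 k)) (fun k => by
      push_cast
      exact one_le_pow₀ (hQ1 k))
  obtain ⟨lam, hlam, h⟩ := hB (hall M o hM)
  obtain ⟨k, hk⟩ := exists_nat_ge lam
  obtain ⟨L, hL⟩ := h k _ (att_finite γ fx hG.1)
  have hq : 10 ^ 7 * lam ≤ (Q k : ℝ) := by
    simp only [Q]
    push_cast
    linarith
  have hq0 : (0 : ℝ) < Q k := by linarith [hQ1 k]
  have hS := smProp_of_op γ fx (pow_pos (hQ k) 6) (by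
    push_cast
    rw [pow_succ, mul_comm]
    exact mul_le_mul_of_nonneg_left (by linarith) (by positivity)) hlam hL
  have hm := main_ineq (q := Q k) hG hS (s := (Q k : ℝ) ^ 3) (by positivity) (by push_cast; ring) hq0
    (by positivity) (by
      push_cast
      exact pow_le_pow_right₀ (hQ1 k) (by norm_num))
  have hn := numeric hlam hq
  push_cast at hm
  linarith

end

end Vale.Agent.P090
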