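import Mathlib

/-!
Spectral gap for the Margulis action on `(ZMod N)²`.
-/

namespace Vale.Agent.P090

noncomputable section

open Finset ZMod

/-- shear in the first coordinate -/
def actU (R : Type) [CommRing R] : R × R ≃ R × R :=
  ⟨fun x => (x.1 + x.2, x.2), fun x => (x.1 - x.2, x.2), fun x => by simp, fun x => by simp⟩
/-- shear in the second coordinate -/
def actV (R : Type) [CommRing R] : R × R ≃ R × R :=
  ⟨fun x => (x.1, x.2 + x.1), fun x => (x.1, x.2 - x.1), fun x => by simp, fun x => by simp⟩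
/-- first translation -/
def actS (R : Type) [CommRing R] : R × R ≃ R × R :=
  ⟨fun x => (x.1 + 1, x.2), fun x => (x.1 - 1, x.2), fun x => by simp, fun x => by simp⟩
/-- second translation -/
def actT (R : Type) [CommRing R] : R × R ≃ R × R :=
  ⟨fun x => (x.1, x.2 + 1), fun x => (x.1, x.2 - 1), fun x => by simp, fun x => by simp⟩
/-- the four generators -/
def act (R : Type) [CommRing R] : Fin 4 → (R × R ≃ R × R) := ![actU R, actV R, actS R, actT R]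

variable {N : ℕ} [NeZero N]

/-- discrete Fourier transform -/
def ft (f : ZMod N × ZMod N → ℝ) (k : ZMod N × ZMod N) : ℂ :=
  ∑ x, (f x : ℂ) * stdAddChar (x.1 * k.1 + x.2 * k.2)

theorem orth (u : ZMod N × ZMod N) :
    ∑ k : ZMod N × ZMod N, stdAddChar (u.1 * k.1 + u.2 * k.2) =
      if u = 0 then ((N : ℂ) ^ 2) else 0 := by
  have h1 := AddChar.sum_mulShift u.1 (isPrimitive_stdAddChar N)
  have h2 := AddChar.sum_mulShift u.2 (isPrimitive_stdAddChar N)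
  rw [Fintype.sum_prod_type]
  simp only [AddChar.map_add_eq_mul, mul_comm u.1, mul_comm u.2]
  rw [← Finset.sum_mul_sum, h1, h2]
  obtain ⟨a, b⟩ := u
  by_cases ha : a = 0 <;> by_cases hb : b = 0 <;> simp [ha, hb, sq]

theorem parseval (f : ZMod N × ZMod N → ℝ) :
    ∑ k, ‖ft f k‖ ^ 2 = (N : ℝ) ^ 2 * ∑ x, f x ^ 2 := by
  have h : ∀ k, ((‖ft f k‖ ^ 2 : ℝ) : ℂ) = ∑ x, ∑ y, (f x : ℂ) * f y *
      stdAddChar ((x - y).1 * k.1 + (x - y).2 * k.2) := by
    intro k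
    rw [← Complex.normSq_eq_norm_sq, ← Complex.mul_conj, ft, map_sum, Finset.sum_mul_sum]
    refine sum_congr rfl fun x _ => sum_congr rfl fun y _ => ?_
    rw [map_mul, Complex.conj_ofReal, ← AddChar.map_neg_eq_conj, mul_mul_mul_comm,
      ← AddChar.map_add_eq_mul]
    congr 2
    simp only [Prod.fst_sub, Prod.snd_sub]
    ring
  have h2 : ((∑ k, ‖ft f k‖ ^ 2 : ℝ) : ℂ) = (((N : ℝ) ^ 2 * ∑ x, f x ^ 2 : ℝ) : ℂ) := by
    rw [Complex.ofReal_sum]
    simp only [h]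
    rw [sum_comm]
    push_cast
    rw [mul_sum]
    refine sum_congr rfl fun x _ => ?_
    rw [sum_comm]
    simp only [← mul_sum, orth, sub_eq_zero]
    rw [sum_eq_single x]
    · simp; ring
    · intro y _ hy; simp [hy.symm]
    · simp
  exact_mod_cast h2

theorem ft_sub (f g : ZMod N × ZMod N → ℝ) (k) : ft (fun x => f x - g x) k = ft f k - ft g k := by
  simp [ft, sub_mul]

theorem ft_U (f : ZMod N × ZMod N → ℝ) (k) :
    ft (fun x => f (actU _ x)) k = ft f ((actV _).symm k) := by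
  unfold ft
  rw [← (actU (ZMod N)).symm.sum_comp]
  refine sum_congr rfl fun x _ => ?_
  simp only [Equiv.apply_symm_apply]
  congr 2
  simp [actU, actV]
  ring

theorem ft_V (f : ZMod N × ZMod N → ℝ) (k) :
    ft (fun x => f (actV _ x)) k = ft f ((actU _).symm k) := by
  unfold ft
  rw [← (actV (ZMod N)).symm.sum_comp]
  refine sum_congr rfl fun x _ => ?_
  simp only [Equiv.apply_symm_apply]
  congr 2
  simp [actU, actV]
  ring

theorem ft_S (f : ZMod N × ZMod N → ℝ) (k) :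
    ft (fun x => f (actS _ x)) k = stdAddChar (-k.1) * ft f k := by
  unfold ft
  rw [← (actS (ZMod N)).symm.sum_comp, mul_sum]
  refine sum_congr rfl fun x _ => ?_
  simp only [Equiv.apply_symm_apply]
  rw [mul_left_comm, ← AddChar.map_add_eq_mul]
  congr 2
  simp [actS]
  ring

theorem ft_T (f : ZMod N × ZMod N → ℝ) (k) :
    ft (fun x => f (actT _ x)) k = stdAddChar (-k.2) * ft f k := by
  unfold ft
  rw [← (actT (ZMod N)).symm.sum_comp, mul_sum]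
  refine sum_congr rfl fun x _ => ?_
  simp only [Equiv.apply_symm_apply]
  rw [mul_left_comm, ← AddChar.map_add_eq_mul]
  congr 2
  simp [actT]
  ring

theorem char_far (a : ZMod N) (h : ¬(-(N : ℤ) < 4 * a.valMinAbs ∧ 4 * a.valMinAbs < N)) :
    2 ≤ ‖stdAddChar (-a) - 1‖ ^ 2 := by
  have hN : (0 : ℝ) < N := by exact_mod_cast NeZero.pos N
  have h1 : -a = ((-a.valMinAbs : ℤ) : ZMod N) := by simp
  have h2 := a.valMinAbs_mem_Ioc
  set α := a.valMinAbs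
  have h3 : stdAddChar (-a) = Complex.exp (((2 * Real.pi * (-α) / N : ℝ) : ℂ) * Complex.I) := by
    rw [h1, stdAddChar_coe]
    congr 1
    push_cast
    ring
  have h4 : Real.cos (2 * Real.pi * (-α) / N) ≤ 0 := by
    rw [← Real.cos_abs]
    have hp := Real.pi_pos
    have ha : |2 * Real.pi * (-α) / N| = 2 * Real.pi * (|(α : ℝ)| / N) := by
      rw [abs_div, abs_mul, abs_neg, abs_of_pos hN, abs_of_pos (by positivity)]
      ring
    have hb : (N : ℝ) ≤ 4 * |(α : ℝ)| := by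
      have : (N : ℤ) ≤ 4 * |α| := by
        rcases abs_cases α with h5 | h5 <;> omega
      exact_mod_cast this
    have hc : 2 * |(α : ℝ)| ≤ N := by
      have : 2 * |α| ≤ (N : ℤ) := by
        obtain ⟨h6, h7⟩ := h2
        rcases abs_cases α with h5 | h5 <;> omega
      exact_mod_cast this
    have hd : 1 / 4 ≤ |(α : ℝ)| / N := by rw [le_div_iff₀ hN]; linarith
    have he : |(α : ℝ)| / N ≤ 1 / 2 := by rw [div_le_iff₀ hN]; linarith
    rw [ha]
    apply Real.cos_nonpos_of_pi_div_two_le_of_le <;> nlinarith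
  rw [h3, ← Complex.normSq_eq_norm_sq, Complex.normSq_apply]
  simp only [Complex.sub_re, Complex.sub_im, Complex.exp_ofReal_mul_I_re,
    Complex.exp_ofReal_mul_I_im, Complex.one_re, Complex.one_im]
  nlinarith [Real.sin_sq_add_cos_sq (2 * Real.pi * (-α) / N)]

theorem transport {G : Type} [Fintype G] (φ : G → ℂ) (σ : G ≃ G) (w R : G → Prop)
    [DecidablePred w] [DecidablePred R] (h : ∀ x, w x → R (σ x)) :
    ∑ x, (if w x then 1 else 0) * ‖φ x‖ ^ 2 ≤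
      3 / 2 * ∑ x, (if R x then 1 else 0) * ‖φ x‖ ^ 2 + 3 * ∑ x, ‖φ (σ x) - φ x‖ ^ 2 := by
  rw [← σ.sum_comp (fun x => (if R x then (1 : ℝ) else 0) * ‖φ x‖ ^ 2), mul_sum, mul_sum,
    ← sum_add_distrib]
  refine sum_le_sum fun x _ => ?_
  by_cases hw : w x
  · rw [if_pos hw, if_pos (h x hw)]
    have h1 : ‖φ x‖ ≤ ‖φ (σ x)‖ + ‖φ (σ x) - φ x‖ := by
      simpa using norm_sub_le (φ (σ x)) (φ (σ x) - φ x)
    have h2 := pow_le_pow_left₀ (norm_nonneg _) h1 2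
    nlinarith [sq_nonneg (‖φ (σ x)‖ - 2 * ‖φ (σ x) - φ x‖)]
  · rw [if_neg hw, zero_mul]
    split_ifs <;> positivity

theorem vma_add (a b : ZMod N) (ha : -(N : ℤ) < 4 * a.valMinAbs ∧ 4 * a.valMinAbs < N)
    (hb : -(N : ℤ) < 4 * b.valMinAbs ∧ 4 * b.valMinAbs < N) :
    (a + b).valMinAbs = a.valMinAbs + b.valMinAbs :=
  (valMinAbs_spec _ _).2 ⟨by simp, by constructor <;> omega⟩

theorem vma_sub (a b : ZMod N) (ha : -(N : ℤ) < 4 * a.valMinAbs ∧ 4 * a.valMinAbs < N)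
    (hb : -(N : ℤ) < 4 * b.valMinAbs ∧ 4 * b.valMinAbs < N) :
    (a - b).valMinAbs = a.valMinAbs - b.valMinAbs :=
  (valMinAbs_spec _ _).2 ⟨by simp, by constructor <;> omega⟩

theorem pointwise (A B : Prop) [Decidable A] [Decidable B] (a b : ℤ) (h : ¬(a = 0 ∧ b = 0)) :
    (1 : ℝ) / 2 + 3 / 2 * (if (0 < a ∧ a ≤ b) ∨ (a < 0 ∧ b ≤ a) then 1 else 0)
      + 3 / 2 * (if (0 < b ∧ b < a) ∨ (b < 0 ∧ a < b) then 1 else 0)
      + 3 / 2 * (if (0 < a ∧ b < -a) ∨ (a < 0 ∧ -a < b) then 1 else 0)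
      + 3 / 2 * (if (b < 0 ∧ -b ≤ a) ∨ (0 < b ∧ a ≤ -b) then 1 else 0) ≤
    (if (A ∧ B) ∧ ((0 < a ∧ 0 ≤ b) ∨ (a < 0 ∧ b ≤ 0)) then 1 else 0)
      + (if (A ∧ B) ∧ ((0 < a ∧ 0 < b) ∨ (a < 0 ∧ b < 0)) then 1 else 0)
      + (if (A ∧ B) ∧ ((0 < a ∧ b < 0) ∨ (a < 0 ∧ 0 < b)) then 1 else 0)
      + (if (A ∧ B) ∧ ((0 ≤ a ∧ b < 0) ∨ (a ≤ 0 ∧ 0 < b)) then 1 else 0)
      + 2 * (if A then 0 else 1) + 2 * (if B then 0 else 1) := by
  by_cases hA : A <;> by_cases hB : B <;> simp only [hA, hB, true_and, false_and, and_false,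
    if_true, if_false] <;> split_ifs <;> first | omega | norm_num

theorem mul_le_of_zero {p : Prop} {a b μ : ℝ} (h0 : 0 ≤ μ) (h1 : p → μ = 0) (h2 : ¬p → a ≤ b) :
    a * μ ≤ b * μ := by
  by_cases hp : p
  · rw [h1 hp]; simp
  · exact mul_le_mul_of_nonneg_right (h2 hp) h0

theorem gap_l2 (f : ZMod N × ZMod N → ℝ) (hf : ∑ x, f x = 0) :
    ∑ x, f x ^ 2 ≤ 12 * ∑ g, ∑ x, (f (act _ g x) - f x) ^ 2 := by
  have hN : (0 : ℝ) < (N : ℝ) ^ 2 := by
    have : (0 : ℝ) < N := by exact_mod_cast NeZero.pos N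
    positivity
  have hU := parseval fun x => f (actU _ x) - f x
  have hV := parseval fun x => f (actV _ x) - f x
  have hS := parseval fun x => f (actS _ x) - f x
  have hT := parseval fun x => f (actT _ x) - f x
  simp only [ft_sub, ft_U, ft_V, ft_S, ft_T] at hU hV hS hT
  have hU' : ∑ k, ‖ft f (actV _ k) - ft f k‖ ^ 2 = ∑ k, ‖ft f ((actV _).symm k) - ft f k‖ ^ 2 := by
    rw [← (actV (ZMod N)).symm.sum_comp]
    simp only [Equiv.apply_symm_apply, norm_sub_rev]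
  have hV' : ∑ k, ‖ft f (actU _ k) - ft f k‖ ^ 2 = ∑ k, ‖ft f ((actU _).symm k) - ft f k‖ ^ 2 := by
    rw [← (actU (ZMod N)).symm.sum_comp]
    simp only [Equiv.apply_symm_apply, norm_sub_rev]
  let A : ZMod N → Prop := fun a => -(N : ℤ) < 4 * a.valMinAbs ∧ 4 * a.valMinAbs < N
  have t1 := transport (ft f) (actV _)
    (fun k => (A k.1 ∧ A k.2) ∧ ((0 < k.1.valMinAbs ∧ 0 ≤ k.2.valMinAbs) ∨
      (k.1.valMinAbs < 0 ∧ k.2.valMinAbs ≤ 0)))
    (fun k => (0 < k.1.valMinAbs ∧ k.1.valMinAbs ≤ k.2.valMinAbs) ∨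
      (k.1.valMinAbs < 0 ∧ k.2.valMinAbs ≤ k.1.valMinAbs)) (by
      rintro ⟨a, b⟩ ⟨⟨ha, hb⟩, h⟩
      simp only [actV, Equiv.coe_fn_mk, vma_add b a hb ha] at h ⊢
      omega)
  have t2 := transport (ft f) (actU _)
    (fun k => (A k.1 ∧ A k.2) ∧ ((0 < k.1.valMinAbs ∧ 0 < k.2.valMinAbs) ∨
      (k.1.valMinAbs < 0 ∧ k.2.valMinAbs < 0)))
    (fun k => (0 < k.2.valMinAbs ∧ k.2.valMinAbs < k.1.valMinAbs) ∨
      (k.2.valMinAbs < 0 ∧ k.1.valMinAbs < k.2.valMinAbs)) (by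
      rintro ⟨a, b⟩ ⟨⟨ha, hb⟩, h⟩
      simp only [actU, Equiv.coe_fn_mk, vma_add a b ha hb] at h ⊢
      omega)
  have t3 := transport (ft f) (actV _).symm
    (fun k => (A k.1 ∧ A k.2) ∧ ((0 < k.1.valMinAbs ∧ k.2.valMinAbs < 0) ∨
      (k.1.valMinAbs < 0 ∧ 0 < k.2.valMinAbs)))
    (fun k => (0 < k.1.valMinAbs ∧ k.2.valMinAbs < -k.1.valMinAbs) ∨
      (k.1.valMinAbs < 0 ∧ -k.1.valMinAbs < k.2.valMinAbs)) (by
      rintro ⟨a, b⟩ ⟨⟨ha, hb⟩, h⟩
      simp only [actV, Equiv.coe_fn_symm_mk, vma_sub b a hb ha] at h ⊢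
      omega)
  have t4 := transport (ft f) (actU _).symm
    (fun k => (A k.1 ∧ A k.2) ∧ ((0 ≤ k.1.valMinAbs ∧ k.2.valMinAbs < 0) ∨
      (k.1.valMinAbs ≤ 0 ∧ 0 < k.2.valMinAbs)))
    (fun k => (k.2.valMinAbs < 0 ∧ -k.2.valMinAbs ≤ k.1.valMinAbs) ∨
      (0 < k.2.valMinAbs ∧ k.1.valMinAbs ≤ -k.2.valMinAbs)) (by
      rintro ⟨a, b⟩ ⟨⟨ha, hb⟩, h⟩
      simp only [actU, Equiv.coe_fn_symm_mk, vma_sub a b ha hb] at h ⊢
      omega)
  have far : ∀ (a : ZMod N) (z : ℂ), 2 * (if A a then 0 else 1) * ‖z‖ ^ 2 ≤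
      ‖stdAddChar (-a) * z - z‖ ^ 2 := by
    intro a z
    split_ifs with ha
    · simp
    · have := char_far a ha
      rw [← sub_one_mul, norm_mul, mul_pow]
      nlinarith [sq_nonneg ‖z‖]
  have t5 : ∑ k : ZMod N × ZMod N, 2 * (if A k.1 then 0 else 1) * ‖ft f k‖ ^ 2 ≤ _ :=
    sum_le_sum fun k _ => far k.1 (ft f k)
  have t6 : ∑ k : ZMod N × ZMod N, 2 * (if A k.2 then 0 else 1) * ‖ft f k‖ ^ 2 ≤ _ :=
    sum_le_sum fun k _ => far k.2 (ft f k)
  have h0 : ft f 0 = 0 := by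
    simp only [ft, Prod.fst_zero, Prod.snd_zero, mul_zero, add_zero, AddChar.map_zero_eq_one,
      mul_one]
    exact_mod_cast hf
  have t7 := sum_le_sum (s := univ) fun (k : ZMod N × ZMod N) _ =>
    mul_le_of_zero (p := k.1.valMinAbs = 0 ∧ k.2.valMinAbs = 0) (sq_nonneg ‖ft f k‖) (by
      simp only [valMinAbs_eq_zero]
      rintro ⟨h1, h2⟩
      rw [show k = 0 from Prod.ext h1 h2, h0]
      simp) (pointwise (A k.1) (A k.2) k.1.valMinAbs k.2.valMinAbs)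
  simp only [add_mul, sum_add_distrib, mul_assoc (3 / 2 : ℝ), ← mul_sum] at t7
  have hP := parseval f
  have e1 : 0 ≤ ∑ x, (f (actS _ x) - f x) ^ 2 := sum_nonneg fun _ _ => sq_nonneg _
  have e2 : 0 ≤ ∑ x, (f (actT _ x) - f x) ^ 2 := sum_nonneg fun _ _ => sq_nonneg _
  rw [Fin.sum_univ_four]
  simp only [act, Matrix.cons_val_zero, Matrix.cons_val_one, Matrix.cons_val]
  refine le_of_mul_le_mul_left ?_ hN
  nlinarith

end

end Vale.Agent.P090
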