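import Mathlib

/-!
The subdivided covering graph, base distances, labels and cutoff functions.
-/

namespace Vale.Agent.P090

noncomputable section

open Finset Function

/-- points of the subdivided graph -/
abbrev Pt (Z : Type) (B : ℕ) : Type := Z × Fin 4 × Fin (24 * B)

variable {Z : Type} (γ : Fin 4 → Z ≃ Z) {B : ℕ}

/-- the `j`-th point on the edge of type `g` starting at `h` -/
def pt [NeZero B] (h : Z) (g : Fin 4) (j : ℕ) : Pt Z B :=
  if hj : j < 24 * B then (h, g, ⟨j, hj⟩)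
  else (γ g h, g, ⟨0, by have := NeZero.pos B; omega⟩)

/-- one step forward -/
def tau [NeZero B] (y : Pt Z B) : Pt Z B := pt γ y.1 y.2.1 (y.2.2 + 1)

/-- nearest vertex -/
def vtx (y : Pt Z B) : Z := if y.2.2.val < 12 * B then y.1 else γ y.2.1 y.1

/-- the attached point -/
def att (fx : Z → Z) (y : Pt Z B) : Pt Z B := (fx (vtx γ y), y.2)

/-- allowed unit moves of one coordinate -/
def Step1 [NeZero B] (y y' : Pt Z B) : Prop :=
  y' = y ∨ y' = tau γ y ∨ (y.2.2.val = 0 ∧ y'.2.2.val = 0 ∧ y'.1 = y.1)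

/-- distance from a centre to a base point -/
def dd (b : Fin 4 × ℕ) (y : Fin 4 × Fin (24 * B)) : ℕ :=
  if y.1 = b.1 then
    min ((b.2 - y.2.val) + (y.2.val - b.2)) (24 * B - ((b.2 - y.2.val) + (y.2.val - b.2)))
  else min b.2 (24 * B - b.2) + min y.2.val (24 * B - y.2.val)

/-- label of a point seen from a centre -/
def lab (b : Fin 4 × ℕ) (y : Pt Z B) : Z :=
  if b.2 < 6 * B then vtx γ y else if b.2 < 18 * B then y.1 else (γ b.1).symm (vtx γ y)

theorem tau_pt [NeZero B] (h : Z) (g : Fin 4) {j : ℕ} (hj : j < 24 * B) :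
    tau γ (pt γ h g j : Pt Z B) = pt γ h g (j + 1) := by
  simp [tau, pt, hj]

theorem step_cases [NeZero B] {y y' : Pt Z B} (h : Step1 γ y y') :
    (y'.2.1 = y.2.1 ∧ y'.1 = y.1 ∧ (y'.2.2.val = y.2.2.val ∨ y'.2.2.val = y.2.2.val + 1)) ∨
    (y'.2.1 = y.2.1 ∧ y'.1 = γ y.2.1 y.1 ∧ y.2.2.val + 1 = 24 * B ∧ y'.2.2.val = 0) ∨
    (y.2.2.val = 0 ∧ y'.2.2.val = 0 ∧ y'.1 = y.1) := by
  rcases h with rfl | rfl | h
  · simp
  · unfold tau pt
    split_ifs with h
    · simp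
    · have := y.2.2.2
      refine Or.inr (Or.inl ⟨rfl, rfl, by omega, rfl⟩)
  · exact Or.inr (Or.inr h)

theorem dd_step [NeZero B] {y y' : Pt Z B} (h : Step1 γ y y') {b : Fin 4 × ℕ} (hb : b.2 ≤ 24 * B) :
    dd b y'.2 ≤ dd b y.2 + 1 ∧ dd b y.2 ≤ dd b y'.2 + 1 := by
  have h1 := y.2.2.2
  have h2 := y'.2.2.2
  unfold dd
  rcases step_cases γ h with ⟨e1, -, e3⟩ | ⟨e1, -, e3, e4⟩ | ⟨e1, e2, -⟩
  · rw [e1]; split_ifs <;> omega
  · rw [e1]; split_ifs <;> omega
  · split_ifs <;> omega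

theorem dd_shift (g : Fin 4) {P : ℕ} (hP : P + B ≤ 24 * B) (y : Fin 4 × Fin (24 * B)) :
    dd (g, P + B) y ≤ dd (g, P) y + B := by
  have h1 := y.2.2
  unfold dd
  dsimp only
  split_ifs <;> omega

theorem dd_zero (g g' : Fin 4) (y : Fin 4 × Fin (24 * B)) : dd (g, 0) y = dd (g', 0) y := by
  have h1 := y.2.2
  unfold dd
  dsimp only
  split_ifs <;> omega

theorem dd_end (g g' : Fin 4) (y : Fin 4 × Fin (24 * B)) : dd (g, 24 * B) y = dd (g', 0) y := by
  have h1 := y.2.2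
  unfold dd
  dsimp only
  split_ifs <;> omega

theorem dd_pt [NeZero B] (h : Z) (g : Fin 4) {P j : ℕ} (h1 : P ≤ j) (h2 : j ≤ P + B)
    (h3 : j ≤ 24 * B) : dd (g, P) (pt γ h g j : Pt Z B).2 ≤ B := by
  unfold dd pt
  split_ifs <;> simp_all <;> omega

theorem lab_step [NeZero B] {y y' : Pt Z B} (h : Step1 γ y y') {b : Fin 4 × ℕ}
    (hb : b.2 ≤ 24 * B) (hd : dd b y.2 ≤ 4 * B) : lab γ b y' = lab γ b y := by
  have h0 := NeZero.pos B
  have h1 := y.2.2.2
  have h2 := y'.2.2.2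
  unfold dd at hd
  unfold lab vtx
  rcases step_cases γ h with ⟨e1, e2, e3⟩ | ⟨e1, e2, e3, e4⟩ | ⟨e1, e2, e3⟩
  · rw [e1, e2]
    split_ifs at hd ⊢ <;> first | rfl | omega
  · rw [e1, e2]
    split_ifs at hd ⊢ <;> first | rfl | omega
  · rw [e3]
    split_ifs at hd ⊢ <;> first | rfl | omega

theorem lab_shift (g : Fin 4) {P : ℕ} (y : Pt Z B) (hd : dd (g, P) y.2 < 2 * B) :
    lab γ (g, P + B) y = lab γ (g, P) y := by
  have h1 := y.2.2.2
  unfold dd at hd
  unfold lab vtx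
  dsimp only at hd ⊢
  by_cases hg : y.2.1 = g
  · rw [if_pos hg] at hd
    rw [hg]
    split_ifs <;> first | rfl | omega | simp
  · rw [if_neg hg] at hd
    split_ifs <;> first | rfl | omega

theorem lab_zero [NeZero B] (g : Fin 4) (y : Pt Z B) : lab γ (g, 0) y = vtx γ y := by
  have h0 := NeZero.pos B
  unfold lab
  rw [if_pos (by dsimp only; omega)]

theorem lab_end (g : Fin 4) (y : Pt Z B) : lab γ (g, 24 * B) y = (γ g).symm (vtx γ y) := by
  unfold lab
  rw [if_neg (by dsimp only; omega), if_neg (by dsimp only; omega)]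

theorem lab_mem (W : Finset Z) (hW : ∀ g z, γ g z ∈ W ↔ z ∈ W) (b) (y : Pt Z B) (hy : y.1 ∈ W) :
    lab γ b y ∈ W := by
  have h1 : vtx γ y ∈ W := by
    unfold vtx
    split_ifs
    · exact hy
    · exact (hW _ _).2 hy
  unfold lab
  split_ifs
  · exact h1
  · exact hy
  · rw [← hW b.1, Equiv.apply_symm_apply]
    exact h1

theorem vtx_att (fx : Z → Z) (hfx : ∀ g z, γ g (fx z) = fx z) (y : Pt Z B) :
    vtx γ (att γ fx y) = fx (vtx γ y) := by
  conv_lhs => unfold vtx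
  split_ifs
  · rfl
  · exact hfx _ _

theorem vtx_pt_zero [NeZero B] (h : Z) (g : Fin 4) : vtx γ (pt γ h g 0 : Pt Z B) = h := by
  have h0 := NeZero.pos B
  unfold vtx pt
  rw [dif_pos (by omega), if_pos (by dsimp only; omega)]

/-- truncation to the unit interval -/
def clamp (x : ℝ) : ℝ := max 0 (min 1 x)

theorem clamp_lip (x y : ℝ) : |clamp x - clamp y| ≤ |x - y| := by
  unfold clamp
  rw [max_comm 0, max_comm 0]
  refine (abs_max_sub_max_le_abs _ _ _).trans ?_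
  rw [min_comm 1, min_comm 1]
  simpa using abs_min_sub_min_le_max x 1 y 1

theorem clamp_nonneg (x : ℝ) : 0 ≤ clamp x := le_max_left _ _
theorem clamp_le_one (x : ℝ) : clamp x ≤ 1 := max_le zero_le_one (min_le_left _ _)
theorem clamp_eq_zero {x : ℝ} (h : x ≤ 0) : clamp x = 0 :=
  max_eq_left ((min_le_right _ _).trans h)
theorem clamp_eq_one {x : ℝ} (h : 1 ≤ x) : clamp x = 1 := by
  unfold clamp
  rw [min_eq_left h]
  simp

variable (B) in
/-- inner cutoff -/
def kap (d : ℕ) : ℝ := clamp ((d : ℝ) / B - 1)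
variable (B) in
/-- outer cutoff -/
def om (d : ℕ) : ℝ := clamp (4 - (d : ℝ) / B)

theorem div_lip [NeZero B] {d d' : ℕ} (h : d' ≤ d + 1 ∧ d ≤ d' + 1) :
    |(d : ℝ) / B - d' / B| ≤ 1 / B := by
  have hB : (0 : ℝ) < B := by exact_mod_cast NeZero.pos B
  rw [← sub_div, abs_div, abs_of_pos hB]
  refine div_le_div_of_nonneg_right ?_ hB.le
  have h1 : (d' : ℝ) ≤ d + 1 := by exact_mod_cast h.1
  have h2 : (d : ℝ) ≤ d' + 1 := by exact_mod_cast h.2
  rw [abs_le]
  constructor <;> linarith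

theorem kap_lip [NeZero B] {d d' : ℕ} (h : d' ≤ d + 1 ∧ d ≤ d' + 1) :
    |kap B d - kap B d'| ≤ 1 / B := by
  refine (clamp_lip _ _).trans ?_
  rw [sub_sub_sub_cancel_right]
  exact div_lip h

theorem om_lip [NeZero B] {d d' : ℕ} (h : d' ≤ d + 1 ∧ d ≤ d' + 1) :
    |om B d - om B d'| ≤ 1 / B := by
  refine (clamp_lip _ _).trans ?_
  rw [sub_sub_sub_cancel_left, abs_sub_comm]
  exact div_lip h

theorem kap_zero [NeZero B] {d : ℕ} (h : d ≤ B) : kap B d = 0 := by
  have hB : (0 : ℝ) < B := by exact_mod_cast NeZero.pos B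
  have h1 : (d : ℝ) ≤ B := by exact_mod_cast h
  exact clamp_eq_zero (by rw [sub_nonpos, div_le_one hB]; exact h1)

theorem kap_one [NeZero B] {d : ℕ} (h : 2 * B ≤ d) : kap B d = 1 := by
  have hB : (0 : ℝ) < B := by exact_mod_cast NeZero.pos B
  have h1 : 2 * (B : ℝ) ≤ d := by exact_mod_cast h
  exact clamp_eq_one (by rw [le_sub_iff_add_le, le_div_iff₀ hB]; linarith)

theorem om_one [NeZero B] {d : ℕ} (h : d ≤ 3 * B) : om B d = 1 := by
  have hB : (0 : ℝ) < B := by exact_mod_cast NeZero.pos B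
  have h1 : (d : ℝ) ≤ 3 * B := by exact_mod_cast h
  exact clamp_eq_one (by rw [le_sub_comm, div_le_iff₀ hB]; linarith)

theorem om_zero [NeZero B] {d : ℕ} (h : 4 * B ≤ d) : om B d = 0 := by
  have hB : (0 : ℝ) < B := by exact_mod_cast NeZero.pos B
  have h1 : 4 * (B : ℝ) ≤ d := by exact_mod_cast h
  exact clamp_eq_zero (by rw [sub_nonpos, le_div_iff₀ hB]; linarith)

/-- one-coordinate test function -/
def al (b : Fin 4 × ℕ) (ξ : Z → ℝ) (y : Pt Z B) : ℝ := ξ (lab γ b y) * om B (dd b y.2)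

/-- indicator of far coordinates -/
def far (b : Fin 4 × ℕ) (y : Pt Z B) : ℝ := if 2 * B ≤ dd b y.2 then 1 else 0

theorem far_nonneg (b) (y : Pt Z B) : 0 ≤ far b y := by
  unfold far
  split_ifs <;> simp

theorem far_le_one (b) (y : Pt Z B) : far b y ≤ 1 := by
  unfold far
  split_ifs <;> simp

theorem al_abs {ξ : Z → ℝ} (hξ : ∀ z, |ξ z| ≤ 1) (b) (y : Pt Z B) : |al γ b ξ y| ≤ 1 := by
  unfold al
  rw [abs_mul, abs_of_nonneg (a := om B _) (clamp_nonneg _)]
  exact mul_le_one₀ (hξ _) (clamp_nonneg _) (clamp_le_one _)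

theorem al_step [NeZero B] {ξ : Z → ℝ} (hξ : ∀ z, |ξ z| ≤ 1) {b : Fin 4 × ℕ} (hb : b.2 ≤ 24 * B)
    {y y' : Pt Z B} (h : Step1 γ y y') : |al γ b ξ y - al γ b ξ y'| ≤ far b y / B := by
  have hB : (0 : ℝ) < B := by exact_mod_cast NeZero.pos B
  have h0 := NeZero.pos B
  have h1 := dd_step γ h hb
  unfold al
  by_cases hd : dd b y.2 ≤ 4 * B
  · rw [lab_step γ h hb hd, ← mul_sub, abs_mul]
    refine (mul_le_of_le_one_left (abs_nonneg _) (hξ _)).trans ?_
    unfold far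
    split_ifs with h2
    · exact om_lip h1
    · rw [om_one (by omega), om_one (by omega)]
      simp
  · rw [om_zero (by omega), om_zero (by omega)]
    simpa using div_nonneg (far_nonneg b y) hB.le

theorem al_shift [NeZero B] (ξ : Z → ℝ) (g : Fin 4) {P : ℕ} (hP : P + B ≤ 24 * B) (y : Pt Z B)
    (hd : dd (g, P) y.2 < 2 * B) : al γ (g, P + B) ξ y = al γ (g, P) ξ y := by
  have := dd_shift g hP y.2
  unfold al
  rw [lab_shift γ g y hd, om_one (by omega), om_one (by omega)]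

variable {n : ℕ}

/-- global cutoff -/
def chi (q : ℝ) (b : Fin n → Fin 4 × ℕ) (u : Fin n → Pt Z B) : ℝ :=
  max 0 (1 - q / n * ∑ j, kap B (dd (b j) (u j).2))

theorem chi_nonneg (q : ℝ) (b) (u : Fin n → Pt Z B) : 0 ≤ chi q b u := le_max_left _ _

theorem chi_le_one {q : ℝ} (hq : 0 ≤ q) (b) (u : Fin n → Pt Z B) : chi q b u ≤ 1 := by
  refine max_le zero_le_one ?_
  have : 0 ≤ q / n * ∑ j, kap B (dd (b j) (u j).2) :=
    mul_nonneg (by positivity) (sum_nonneg fun _ _ => clamp_nonneg _)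
  linarith

theorem chi_sub {q : ℝ} (hq : 0 ≤ q) (b b') (u u' : Fin n → Pt Z B) :
    |chi q b u - chi q b' u'| ≤
      q / n * ∑ j, |kap B (dd (b j) (u j).2) - kap B (dd (b' j) (u' j).2)| := by
  unfold chi
  rw [max_comm 0, max_comm 0]
  refine (abs_max_sub_max_le_abs _ _ _).trans ?_
  rw [sub_sub_sub_cancel_left, ← mul_sub, abs_mul, abs_of_nonneg (by positivity : 0 ≤ q / n),
    abs_sub_comm, ← sum_sub_distrib]
  exact mul_le_mul_of_nonneg_left (abs_sum_le_sum_abs _ _) (by positivity)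

theorem chi_step [NeZero B] (hn : 0 < n) {q : ℝ} (hq : 0 ≤ q) {b : Fin n → Fin 4 × ℕ}
    (hb : ∀ j, (b j).2 ≤ 24 * B) {u u' : Fin n → Pt Z B} (h : ∀ j, Step1 γ (u j) (u' j)) :
    |chi q b u - chi q b u'| ≤ q / B := by
  have hn' : (0 : ℝ) < n := by exact_mod_cast hn
  refine (chi_sub hq b b u u').trans ?_
  refine (mul_le_mul_of_nonneg_left (sum_le_sum fun j _ => kap_lip (dd_step γ (h j) (hb j)))
    (by positivity)).trans (le_of_eq ?_)
  simp only [sum_const, card_univ, Fintype.card_fin, nsmul_eq_mul]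
  field_simp

theorem chi_update {q : ℝ} (hq : 0 ≤ q) (b : Fin n → Fin 4 × ℕ) (i) (b')
    (u : Fin n → Pt Z B) : |chi q (update b i b') u - chi q b u| ≤ q / n := by
  refine (chi_sub hq _ b u u).trans ?_
  refine mul_le_of_le_one_right (by positivity) ?_
  rw [sum_eq_single i]
  · have := clamp_nonneg
    have := clamp_le_one
    unfold kap
    rw [abs_le]
    constructor <;> grind
  · intro j _ hj
    simp [hj]
  · simp

theorem chi_far [NeZero B] (hn : 0 < n) {q : ℝ} (hq : 0 < q) (b : Fin n → Fin 4 × ℕ)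
    (u : Fin n → Pt Z B) : chi q b u * ∑ j, far (b j) (u j) ≤ n / q := by
  have hn' : (0 : ℝ) < n := by exact_mod_cast hn
  have h1 : ∑ j, far (b j) (u j) ≤ ∑ j, kap B (dd (b j) (u j).2) := sum_le_sum fun j _ => by
    unfold far
    split_ifs with h
    · exact (kap_one h).ge
    · exact clamp_nonneg _
  have h2 : 0 ≤ ∑ j, far (b j) (u j) := sum_nonneg fun j _ => far_nonneg _ _
  by_cases h : 1 - q / n * ∑ j, kap B (dd (b j) (u j).2) ≤ 0
  · unfold chi
    rw [max_eq_left h, zero_mul]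
    positivity
  · refine (mul_le_of_le_one_left h2 (chi_le_one hq.le b u)).trans (h1.trans ?_)
    rw [le_div_iff₀ hq]
    have h3 : q / n * ∑ j, kap B (dd (b j) (u j).2) ≤ 1 := by linarith
    rw [div_mul_eq_mul_div, div_le_one hn'] at h3
    linarith

theorem chi_one [NeZero B] (q : ℝ) {b : Fin n → Fin 4 × ℕ} {u : Fin n → Pt Z B}
    (h : ∀ j, dd (b j) (u j).2 ≤ B) : chi q b u = 1 := by
  unfold chi
  simp [fun j => kap_zero (h j)]

end

end Vale.Agent.P090
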