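import Vale.Agent.P090.Defs

/-!
Gluing countably many constraint systems to one uniformly discrete space and extracting, from
the bounded approximation property, operators on test functions.
-/

namespace Vale.Agent.P090

noncomputable section

open Set

/-- test functions of size `θ` for a constraint system -/
def GoodE {Y : Type} (E : Y → Y → ℝ → Prop) (D θ : ℝ) (f : Y → ℝ) : Prop :=
  (∀ y y' w, E y y' w → |f y - f y'| ≤ θ * w) ∧ ∀ y, |f y| ≤ θ * D

/-- the operators extracted from the approximation property -/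
def OpProp {Y : Type} (E : Y → Y → ℝ → Prop) (D lam : ℝ) (A : Set Y)
    (L : (Y → ℝ) →ₗ[ℝ] (Y → ℝ)) : Prop :=
  (∀ θ f, 0 < θ → GoodE E D θ f → ∀ y y' w, E y y' w → |L f y - L f y'| ≤ lam * θ * w) ∧
  (∀ θ f, 0 < θ → GoodE E D θ f → ∀ y ∈ A, |L f y - f y| ≤ θ) ∧
  ∃ F : Set Y, F.Finite ∧ ∀ θ f, 0 < θ → GoodE E D θ f → (∀ y ∈ F, f y = 0) → ∀ y, |L f y| ≤ θ

section Free

variable {M : Type} [MetricSpace M] (o : M)

/-- the point evaluations as elements of the free space -/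
def deltaF (x : M) : Free o :=
  ⟨delta o x, Submodule.le_topologicalClosure _ (Submodule.subset_span ⟨x, rfl⟩)⟩

theorem norm_delta_sub (x y : M) : ‖deltaF o x - deltaF o y‖ ≤ dist x y := by
  change ‖delta o x - delta o y‖ ≤ _
  refine ContinuousLinearMap.opNorm_le_bound _ dist_nonneg fun f => ?_
  rw [mul_comm]
  exact f.le_norm x y

theorem norm_delta (x : M) : ‖deltaF o x‖ ≤ dist x o := by
  change ‖delta o x‖ ≤ _
  refine ContinuousLinearMap.opNorm_le_bound _ dist_nonneg fun f => ?_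
  have h1 := f.le_norm x o
  have h2 : f.fn o = 0 := f.2.1
  rw [h2, sub_zero, mul_comm] at h1
  exact h1

theorem eval_le (μ : Free o) (f : Lip0 o) : |μ.1 f| ≤ ‖μ‖ * ‖f‖ := μ.1.le_opNorm f

theorem exists_fin_support (μ : Free o) {ε : ℝ} (hε : 0 < ε) :
    ∃ F : Set M, F.Finite ∧ ∀ f : Lip0 o, (∀ x ∈ F, f.fn x = 0) → |μ.1 f| ≤ ε * ‖f‖ := by
  have h1 : μ.1 ∈ closure ((Submodule.span ℝ (Set.range (delta o)) : Submodule ℝ _) :
      Set (StrongDual ℝ (Lip0 o))) := μ.2
  obtain ⟨ν, hν, hd⟩ := Metric.mem_closure_iff.1 h1 ε hε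
  have h2 : ∃ F : Set M, F.Finite ∧ ∀ f : Lip0 o, (∀ x ∈ F, f.fn x = 0) → ν f = 0 := by
    refine Submodule.span_induction (p := fun ν _ => ∃ F : Set M, F.Finite ∧
      ∀ f : Lip0 o, (∀ x ∈ F, f.fn x = 0) → ν f = 0) ?_ ?_ ?_ ?_ hν
    · rintro _ ⟨x, rfl⟩
      exact ⟨{x}, finite_singleton x, fun f hf => hf x rfl⟩
    · exact ⟨∅, finite_empty, fun f _ => rfl⟩
    · rintro a b _ _ ⟨F, hF, ha⟩ ⟨G, hG, hb⟩
      refine ⟨F ∪ G, hF.union hG, fun f hf => ?_⟩
      rw [ContinuousLinearMap.add_apply, ha f fun x hx => hf x (Or.inl hx),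
        hb f fun x hx => hf x (Or.inr hx), add_zero]
    · rintro c a _ ⟨F, hF, ha⟩
      refine ⟨F, hF, fun f hf => ?_⟩
      rw [ContinuousLinearMap.smul_apply, ha f hf, smul_zero]
  obtain ⟨F, hF, h⟩ := h2
  refine ⟨F, hF, fun f hf => ?_⟩
  have h3 : μ.1 f = (μ.1 - ν) f := by rw [ContinuousLinearMap.sub_apply, h f hf, sub_zero]
  rw [h3]
  refine ((μ.1 - ν).le_opNorm f).trans (mul_le_mul_of_nonneg_right ?_ (norm_nonneg _))
  rw [← dist_eq_norm]
  exact hd.le

theorem exists_fin_support_compact {X : Type} [NormedAddCommGroup X]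
    (ev : X →+ (Lip0 o →ₗ[ℝ] ℝ)) (hev : ∀ u f, |ev u f| ≤ ‖u‖ * ‖f‖)
    (hap : ∀ u, ∃ F : Set M, F.Finite ∧
      ∀ f : Lip0 o, (∀ x ∈ F, f.fn x = 0) → |ev u f| ≤ 1 / 2 * ‖f‖)
    (K : Set X) (hK : IsCompact K) :
    ∃ F : Set M, F.Finite ∧ ∀ μ ∈ K, ∀ f : Lip0 o, (∀ x ∈ F, f.fn x = 0) → |ev μ f| ≤ ‖f‖ := by
  obtain ⟨t, ht, hc⟩ := Metric.totallyBounded_iff.1 hK.totallyBounded (1 / 2) (by norm_num)
  choose F hF h using hap
  refine ⟨⋃ ν ∈ t, F ν, ht.biUnion fun ν _ => hF ν, fun μ hμ f hf => ?_⟩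
  obtain ⟨ν, hν, hd⟩ : ∃ ν ∈ t, μ ∈ Metric.ball ν (1 / 2) := by simpa using hc hμ
  have h1 := h ν f fun x hx => hf x (mem_biUnion hν hx)
  have h2 := hev (μ - ν) f
  have h3 : ‖μ - ν‖ ≤ 1 / 2 := by rw [← dist_eq_norm]; exact (Metric.mem_ball.1 hd).le
  have h4 : ev μ f = ev (μ - ν) f + ev ν f := by
    rw [map_sub, LinearMap.sub_apply]
    ring
  rw [h4]
  have h5 := mul_le_mul_of_nonneg_right h3 (norm_nonneg f)
  exact (abs_add_le _ _).trans (by linarith)

theorem compact_range {X : Type} [NormedAddCommGroup X] [NormedSpace ℝ X] (T : X →L[ℝ] X)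
    (hT : FiniteDimensional ℝ (LinearMap.range (T : X →ₗ[ℝ] X))) (R : ℝ) :
    ∃ K : Set X, IsCompact K ∧ ∀ u, ‖T u‖ ≤ R → T u ∈ K := by
  haveI : ProperSpace (LinearMap.range (T : X →ₗ[ℝ] X)) :=
    FiniteDimensional.proper_real _
  refine ⟨Subtype.val '' Metric.closedBall (0 : LinearMap.range (T : X →ₗ[ℝ] X)) R,
    (isCompact_closedBall _ _).image continuous_subtype_val, fun u hu => ?_⟩
  exact ⟨⟨T u, u, rfl⟩, by simpa using hu, rfl⟩

theorem op_of_bap' {X : Type} [NormedAddCommGroup X] [NormedSpace ℝ X]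
    (ev : X →+ (Lip0 o →ₗ[ℝ] ℝ)) (hev : ∀ u f, |ev u f| ≤ ‖u‖ * ‖f‖)
    (hap : ∀ u, ∃ F : Set M, F.Finite ∧
      ∀ f : Lip0 o, (∀ x ∈ F, f.fn x = 0) → |ev u f| ≤ 1 / 2 * ‖f‖)
    (dl : M → X) (hdl : ∀ x f, ev (dl x) f = f.fn x) (hd1 : ∀ x y, ‖dl x - dl y‖ ≤ dist x y)
    (hd2 : ∀ x, ‖dl x‖ ≤ dist x o)
    {Y : Type} (E : Y → Y → ℝ → Prop) (D lam : ℝ) (ι : Y → M)
    (hι : Function.Injective ι) (ho : ∀ y, ι y ≠ o) (hE : ∀ y y' w, E y y' w → dist (ι y) (ι y') ≤ w)
    (R : ℝ) (hR : ∀ y, dist (ι y) o ≤ R)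
    (hL : ∀ θ f, 0 < θ → GoodE E D θ f → ∀ x x',
      |Function.extend ι f 0 x - Function.extend ι f 0 x'| ≤ θ * dist x x')
    (hlam : 0 ≤ lam)
    (h : ∀ C : Set X, IsCompact C → ∀ ε : ℝ, 0 < ε →
      ∃ T : X →L[ℝ] X, FiniteDimensional ℝ (LinearMap.range (T : X →ₗ[ℝ] X)) ∧
        ‖T‖ ≤ lam ∧ ∀ u ∈ C, ‖T u - u‖ < ε)
    (A : Set Y) (hA : A.Finite) : ∃ L, OpProp E D lam A L := by
  obtain ⟨T, hfin, hT, hC⟩ := h ((fun y => dl (ι y)) '' A) (hA.image _).isCompact 1 one_pos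
  let ex : (Y → ℝ) →ₗ[ℝ] (M → ℝ) := Function.ExtendByZero.linearMap ℝ ι
  let V : Submodule ℝ (Y → ℝ) := (lipSub o).comap ex
  let e : V →ₗ[ℝ] Lip0 o := ex.submoduleComap (lipSub o)
  let L0 : V →ₗ[ℝ] (Y → ℝ) := LinearMap.pi fun y => (ev (T (dl (ι y)))).comp e
  obtain ⟨L, hLL⟩ := L0.exists_extend
  have key : ∀ θ f, 0 < θ → GoodE E D θ f → ∃ g : Lip0 o, g.fn = Function.extend ι f 0 ∧
      ‖g‖ ≤ θ ∧ ∀ y, L f y = ev (T (dl (ι y))) g := by
    intro θ f hθ hf
    have hV : f ∈ V := by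
      refine ⟨?_, θ, hL θ f hθ hf⟩
      change Function.extend ι f 0 o = 0
      rw [Function.extend_apply' _ _ _ (by rintro ⟨y, hy⟩; exact ho y hy)]
      rfl
    refine ⟨e ⟨f, hV⟩, rfl, Lip0.norm_le _ hθ.le (hL θ f hθ hf), fun y => ?_⟩
    have : L f = L0 ⟨f, hV⟩ := by rw [← hLL]; rfl
    rw [this]
    rfl
  refine ⟨L, ?_, ?_, ?_⟩
  · intro θ f hθ hf y y' w hw
    obtain ⟨g, -, hg, hy⟩ := key θ f hθ hf
    have h1 := hev (T (dl (ι y) - dl (ι y'))) g
    have h2 : ev (T (dl (ι y) - dl (ι y'))) g = L f y - L f y' := by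
      rw [hy, hy, map_sub, map_sub]; rfl
    have h3 : ‖T (dl (ι y) - dl (ι y'))‖ ≤ lam * w :=
      (T.le_opNorm _).trans (mul_le_mul hT ((hd1 _ _).trans (hE y y' w hw))
        (norm_nonneg _) hlam)
    rw [h2] at h1
    have h4 := mul_le_mul h3 hg (norm_nonneg _) ((norm_nonneg _).trans h3)
    calc _ ≤ _ := h1
      _ ≤ lam * w * θ := h4
      _ = _ := by ring
  · intro θ f hθ hf y hyA
    obtain ⟨g, hgf, hg, hy⟩ := key θ f hθ hf
    have h1 := hev (T (dl (ι y)) - dl (ι y)) g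
    have h2 : ev (T (dl (ι y)) - dl (ι y)) g = L f y - f y := by
      rw [hy, map_sub, LinearMap.sub_apply, hdl, hgf, hι.extend_apply]
    rw [h2] at h1
    have h3 := (hC _ ⟨y, hyA, rfl⟩).le
    have h4 := mul_le_mul h3 hg (norm_nonneg _) zero_le_one
    linarith
  · obtain ⟨K, hK, hKT⟩ := compact_range T hfin (lam * R)
    obtain ⟨F, hF, hFK⟩ := exists_fin_support_compact o ev hev hap K hK
    refine ⟨ι ⁻¹' F, hF.preimage hι.injOn, fun θ f hθ hf h0 y => ?_⟩
    obtain ⟨g, hgf, hg, hy⟩ := key θ f hθ hf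
    rw [hy]
    refine (hFK _ (hKT _ ?_) g fun x hx => ?_).trans hg
    · exact (T.le_opNorm _).trans (mul_le_mul hT ((hd2 _).trans (hR y))
        (norm_nonneg _) hlam)
    · rw [hgf]
      by_cases hx' : ∃ y, ι y = x
      · obtain ⟨y, rfl⟩ := hx'
        rw [hι.extend_apply]
        exact h0 y hx
      · rw [Function.extend_apply' _ _ _ hx']
        rfl

/-- evaluation of an element of the free space -/
def evF : Free o →+ (Lip0 o →ₗ[ℝ] ℝ) where
  toFun μ := (μ.1 : Lip0 o →ₗ[ℝ] ℝ)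
  map_zero' := rfl
  map_add' _ _ := rfl

end Free

section Glue

variable (Y : ℕ → Type) (E : ∀ k, Y k → Y k → ℝ → Prop) (D : ℕ → ℝ)

/-- admissible test functions on the glued space -/
def Adm : Type :=
  {f : Option (Σ k, Y k) → ℝ // |f none| ≤ 1 ∧ ∀ k, GoodE (E k) (D k) 1 fun y => f (some ⟨k, y⟩)}

/-- a bound for admissible functions -/
def bnd : Option (Σ k, Y k) → ℝ
  | none => 1
  | some x => D x.1

variable {Y E D}

theorem Adm.le_bnd (f : Adm Y E D) (x) : |f.1 x| ≤ bnd Y D x := by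
  rcases x with _ | ⟨k, y⟩
  · exact f.2.1
  · simpa [bnd] using (f.2.2 k).2 y

theorem Adm.bdd (x y) : BddAbove (range fun f : Adm Y E D => |f.1 x - f.1 y|) := by
  refine ⟨bnd Y D x + bnd Y D y, ?_⟩
  rintro _ ⟨f, rfl⟩
  exact (abs_sub _ _).trans (add_le_add (f.le_bnd x) (f.le_bnd y))

theorem glue (hE : ∀ k y y' w, E k y y' w → 1 ≤ w) (hD : ∀ k, 1 ≤ D k) :
    ∃ (M : Type) (_ : MetricSpace M) (o : M), UniformlyDiscrete M ∧
      (HasBAP (Free o) → ∃ lam : ℝ, 1 ≤ lam ∧ ∀ k (A : Set (Y k)), A.Finite →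
        ∃ L, OpProp (E k) (D k) lam A L) := by
  classical
  let ind : Option (Σ k, Y k) → Adm Y E D := fun x => ⟨fun z => if z = x then 1 else 0, by
    constructor
    · beta_reduce
      split_ifs <;> simp
    · intro k
      constructor
      · intro y y' w hw
        have := hE k y y' w hw
        beta_reduce
        split_ifs <;> simp <;> linarith
      · intro y
        have := hD k
        beta_reduce
        split_ifs <;> simp <;> linarith⟩
  haveI : Nonempty (Adm Y E D) := ⟨ind none⟩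
  have hle : ∀ (f : Adm Y E D) x y, |f.1 x - f.1 y| ≤ ⨆ f : Adm Y E D, |f.1 x - f.1 y| :=
    fun f x y => le_ciSup (Adm.bdd x y) f
  have hone : ∀ x y, x ≠ y → 1 ≤ ⨆ f : Adm Y E D, |f.1 x - f.1 y| := by
    intro x y hxy
    refine le_trans ?_ (hle (ind x) x y)
    simp [ind, hxy.symm]
  let inst : MetricSpace (Option (Σ k, Y k)) :=
    { dist := fun x y => ⨆ f : Adm Y E D, |f.1 x - f.1 y|
      dist_self := fun x => by simp
      dist_comm := fun x y => by simp only [abs_sub_comm]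
      dist_triangle := fun x y z => ciSup_le fun f =>
        (abs_sub_le _ (f.1 y) _).trans (add_le_add (hle f x y) (hle f y z))
      eq_of_dist_eq_zero := fun {x y} h => by
        by_contra hxy
        have := hone x y hxy
        change (⨆ f : Adm Y E D, |f.1 x - f.1 y|) = 0 at h
        linarith }
  refine ⟨Option (Σ k, Y k), inst, none, ⟨1, one_pos, hone⟩, ?_⟩
  rintro ⟨lam, hlam, h⟩
  refine ⟨lam, hlam, fun k A hA => ?_⟩
  have hinj : Function.Injective (fun y : Y k => (some ⟨k, y⟩ : Option (Σ k, Y k))) := by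
    intro y y' h
    simpa using h
  refine op_of_bap' (none : Option (Σ k, Y k)) (evF none) (eval_le none)
    (fun u => exists_fin_support none u (by norm_num)) (deltaF none) (fun _ _ => rfl)
    (norm_delta_sub none) (norm_delta none) (E k) (D k) lam
    (fun y : Y k => (some ⟨k, y⟩ : Option (Σ k, Y k))) hinj (fun y => by simp) ?_
    (D k + 1) ?_ ?_ (by linarith) h A hA
  · intro y y' w hw
    exact ciSup_le fun f => by simpa using (f.2.2 k).1 y y' w hw
  · intro y
    exact ciSup_le fun f => (abs_sub _ _).trans (add_le_add (f.le_bnd _) (f.le_bnd _))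
  · intro θ f hθ hf x x'
    let g : Adm Y E D := ⟨fun z => θ⁻¹ * Function.extend
        (fun y : Y k => (some ⟨k, y⟩ : Option (Σ k, Y k))) f 0 z, by
      constructor
      · beta_reduce
        rw [Function.extend_apply' _ _ _ ?_]
        · simp
        · simp
      · intro j
        by_cases hj : j = k
        · subst hj
          constructor
          · intro y y' w hw
            beta_reduce
            rw [hinj.extend_apply, hinj.extend_apply, ← mul_sub, abs_mul, abs_inv, abs_of_pos hθ,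
              inv_mul_le_iff₀ hθ, one_mul]
            exact hf.1 y y' w hw
          · intro y
            beta_reduce
            rw [hinj.extend_apply, abs_mul, abs_inv, abs_of_pos hθ, inv_mul_le_iff₀ hθ, one_mul]
            exact hf.2 y
        · have h0 : ∀ y : Y j, Function.extend
              (fun y : Y k => (some ⟨k, y⟩ : Option (Σ k, Y k))) f 0 (some ⟨j, y⟩) = 0 := by
            intro y
            rw [Function.extend_apply' _ _ _ ?_]
            · rfl
            · rintro ⟨y', hy'⟩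
              exact hj (congrArg Sigma.fst (Option.some.inj hy')).symm
          constructor
          · intro y y' w hw
            have := hE j y y' w hw
            simp only [h0]
            simp
            linarith
          · intro y
            have := hD j
            simp only [h0]
            simp
            linarith⟩
    have h1 := hle g x x'
    simp only [g] at h1
    rw [← mul_sub, abs_mul, abs_inv, abs_of_pos hθ, inv_mul_le_iff₀ hθ] at h1
    exact h1

end Glue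

end

end Vale.Agent.P090
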