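import Vale.Agent.P090.Tests
import Vale.Agent.P090.Exp

/-!
The marginals of the smoothed operator are almost equivariant and keep labels, which
contradicts the spectral gap.
-/

namespace Vale.Agent.P090

noncomputable section

open Finset Function

theorem tele (B : ℕ) [NeZero B] (F : ℕ → ℕ → ℝ) :
    F (24 * B) (24 * B) - F 0 0 = ∑ c : Fin 24, ∑ j : Fin B,
      ((F (c * B) (c * B + j + 1) - F (c * B) (c * B + j)) +
        (F (c * B + B) (c * B + B) - F (c * B) (c * B + B)) / B) := by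
  have hB : (B : ℝ) ≠ 0 := by exact_mod_cast NeZero.ne B
  have h1 : ∀ c : ℕ, ∑ j : Fin B, ((F (c * B) (c * B + j + 1) - F (c * B) (c * B + j)) +
      (F (c * B + B) (c * B + B) - F (c * B) (c * B + B)) / B) =
      F ((c + 1) * B) ((c + 1) * B) - F (c * B) (c * B) := by
    intro c
    rw [sum_add_distrib, Fin.sum_univ_eq_sum_range
      (fun j => F (c * B) (c * B + j + 1) - F (c * B) (c * B + j))]
    have := sum_range_sub (fun j => F (c * B) (c * B + j)) B
    simp only [← add_assoc] at this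
    rw [this, add_mul, one_mul]
    simp only [sum_const, card_univ, Fintype.card_fin, nsmul_eq_mul, add_zero]
    field_simp
    ring
  simp only [h1]
  rw [Fin.sum_univ_eq_sum_range (fun c => F ((c + 1) * B) ((c + 1) * B) - F (c * B) (c * B)),
    sum_range_sub (fun c => F (c * B) (c * B))]
  simp

theorem ind_eq_sum {Z : Type} [DecidableEq Z] (W : Finset Z) (s : Z → ℝ) (e : Z ≃ Z) :
    (fun z => if e.symm z ∈ W then s (e.symm z) else 0) =
      ∑ z ∈ W, s z • (Pi.single (e z) 1 : Z → ℝ) := by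
  ext z
  simp only [Finset.sum_apply, Pi.smul_apply, Pi.single_apply, smul_eq_mul, mul_ite, mul_one,
    mul_zero, ← Equiv.symm_apply_eq]
  rw [sum_ite_eq]

variable {Z : Type} [DecidableEq Z] (γ : Fin 4 → Z ≃ Z) {B : ℕ} [NeZero B] {n : ℕ}
  (L : ((Fin n → Pt Z B) → ℝ) →ₗ[ℝ] ((Fin n → Pt Z B) → ℝ)) (q : ℝ)

/-- value of the operator on a localized test function along an edge -/
def XC (b : Fin n → Fin 4 × ℕ) (w : Fin n → Pt Z B) (i : Fin n) (h : Z) (g : Fin 4) (ξ : Z → ℝ)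
    (P j : ℕ) : ℝ :=
  L (Tl γ q (update b i (g, P)) i ξ) (update w i (pt γ h g j))

/-- the marginal at a vertex -/
def xx (b : Fin n → Fin 4 × ℕ) (w : Fin n → Pt Z B) (i : Fin n) (h z : Z) : ℝ :=
  XC γ L q b w i h 0 (Pi.single z 1) 0 0

/-- the sign pattern of the defect of equivariance -/
def sgn (W : Finset Z) (b : Fin n → Fin 4 × ℕ) (w : Fin n → Pt Z B) (i : Fin n) (h : Z)
    (g : Fin 4) (z : Z) : ℝ :=
  if z ∈ W then (if 0 ≤ xx γ L q b w i (γ g h) (γ g z) - xx γ L q b w i h z then 1 else -1) else 0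

theorem sgn_abs (W b w i h g z) : |sgn γ L q W b w i h g z| ≤ 1 := by
  unfold sgn
  split_ifs <;> simp

theorem sgn_update (W b w i h g b' w') :
    sgn γ L q W (update b i b') (update w i w') i h g = sgn γ L q W b w i h g := by
  have : xx γ L q (update b i b') (update w i w') i = xx γ L q b w i := by
    ext h z
    simp only [xx, XC, update_idem]
  unfold sgn
  rw [this]

omit [DecidableEq Z] in
theorem XC_sum (b w i h g P j) (W : Finset Z) (s : Z → ℝ) (φ : Z → Z → ℝ) :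
    XC γ L q b w i h g (∑ z ∈ W, s z • φ z) P j = ∑ z ∈ W, s z * XC γ L q b w i h g (φ z) P j := by
  simp [XC]

omit [DecidableEq Z] in
theorem Tl_zero (b : Fin n → Fin 4 × ℕ) (i g g' ξ) :
    (Tl γ q (update b i (g, 0)) i ξ : (Fin n → Pt Z B) → ℝ) = Tl γ q (update b i (g', 0)) i ξ := by
  ext u
  simp only [Tl_apply, update_self, al, lab_zero, dd_zero g g']
  congr 1
  unfold chi
  congr 3
  refine sum_congr rfl fun j _ => ?_
  by_cases hj : j = i
  · subst hj; simp [dd_zero g g']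
  · simp [hj]

omit [DecidableEq Z] in
theorem Tl_end (b : Fin n → Fin 4 × ℕ) (i g g' ξ) :
    (Tl γ q (update b i (g, 24 * B)) i ξ : (Fin n → Pt Z B) → ℝ) =
      Tl γ q (update b i (g', 0)) i fun z => ξ ((γ g).symm z) := by
  ext u
  simp only [Tl_apply, update_self, al, lab_zero, lab_end, dd_end g g']
  congr 1
  unfold chi
  congr 3
  refine sum_congr rfl fun j _ => ?_
  by_cases hj : j = i
  · subst hj; simp [dd_end g g']
  · simp [hj]

omit [DecidableEq Z] [NeZero B] in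
theorem upd_le {b : Fin n → Fin 4 × ℕ} (hb : ∀ j, (b j).2 ≤ 24 * B) (i g) {P : ℕ}
    (hP : P ≤ 24 * B) (j) : (update b i (g, P) j).2 ≤ 24 * B := by
  by_cases hj : j = i
  · subst hj; simpa using hP
  · simpa [hj] using hb j

variable {γ L q} {fx : Z → Z} {r lam : ℝ}

theorem stepB (hL : SmProp γ fx r lam L) (hn : 0 < n) (hq : 0 < q) (hr : 0 < r) (hrB : r ≤ B)
    (W : Finset Z) {b : Fin n → Fin 4 × ℕ} (hb : ∀ j, (b j).2 ≤ 24 * B) (w : Fin n → Pt Z B)
    (i : Fin n) (h : Z) (g : Fin 4) :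
    ∑ z ∈ W, |xx γ L q b w i (γ g h) (γ g z) - xx γ L q b w i h z| ≤
      2 * (5 * n * lam * ((q + 1) / B + 2 * 1 / r)) +
      (XC γ L q b w i h g (sgn γ L q W b w i h g) (24 * B) (24 * B) -
        XC γ L q b w i h g (sgn γ L q W b w i h g) 0 0) := by
  have h0 := NeZero.pos B
  have hB : (0 : ℝ) < B := by exact_mod_cast h0
  let s : Z → ℝ := fun z =>
    if 0 ≤ xx γ L q b w i (γ g h) (γ g z) - xx γ L q b w i h z then 1 else -1
  have e1 : ∑ z ∈ W, |xx γ L q b w i (γ g h) (γ g z) - xx γ L q b w i h z| =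
      ∑ z ∈ W, s z * xx γ L q b w i (γ g h) (γ g z) - ∑ z ∈ W, s z * xx γ L q b w i h z := by
    rw [← sum_sub_distrib]
    refine sum_congr rfl fun z _ => ?_
    simp only [s]
    split_ifs with hz
    · rw [abs_of_nonneg hz]; ring
    · rw [abs_of_neg (not_le.1 hz)]; ring
  have e2 : ∑ z ∈ W, s z * xx γ L q b w i h z =
      XC γ L q b w i h 0 (sgn γ L q W b w i h g) 0 0 := by
    have := ind_eq_sum W s (Equiv.refl Z)
    simp only [xx]
    rw [← XC_sum]
    exact congrArg (fun ξ => XC γ L q b w i h 0 ξ 0 0) this.symm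
  have e3 : ∑ z ∈ W, s z * xx γ L q b w i (γ g h) (γ g z) =
      XC γ L q b w i (γ g h) 0 (fun z => sgn γ L q W b w i h g ((γ g).symm z)) 0 0 := by
    have := ind_eq_sum W s (γ g)
    simp only [xx]
    rw [← XC_sum]
    exact congrArg (fun ξ => XC γ L q b w i (γ g h) 0 ξ 0 0) this.symm
  have sw : ∀ y y' : Pt Z B, y.2.2.val = 0 → y'.2.2.val = 0 → y'.1 = y.1 →
      ∀ j, Step1 γ (update w i y j) (update w i y' j) := by
    intro y y' h1 h2 h3 j
    by_cases hj : j = i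
    · subst hj
      simp only [update_self]
      exact Or.inr (Or.inr ⟨h1, h2, h3⟩)
    · simp only [update_of_ne hj]
      exact Or.inl rfl
  have e4 := hL.1 _ _ (by positivity) (Tl_good γ fx hn hq.le hr hrB (upd_le hb i g le_rfl) i
    (sgn_abs γ L q W b w i h g) w) _ _ (sw (pt γ (γ g h) 0 0) (pt γ h g (24 * B))
      (by simp [pt, h0]) (by simp [pt]) (by simp [pt, h0]))
  have e5 := hL.1 _ _ (by positivity) (Tl_good γ fx hn hq.le hr hrB (upd_le hb i g (Nat.zero_le _))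
    i (sgn_abs γ L q W b w i h g) w) _ _ (sw (pt γ h g 0) (pt γ h 0 0)
      (by simp [pt, h0]) (by simp [pt, h0]) (by simp [pt, h0]))
  rw [e1, e2, e3]
  unfold XC
  rw [← Tl_end γ q b i g 0, Tl_zero γ q b i 0 g]
  rw [abs_le] at e4 e5
  linarith [e4.2, e5.2]

theorem stepA (hL : SmProp γ fx r lam L) (hn : 0 < n) (hq : 0 < q) (hr : 0 < r) (hrB : r ≤ B)
    {c : Z → ℝ} (hfx : ∀ g z, γ g (fx z) = fx z) (hc : ∀ z, c (fx z) = c z) (hc1 : ∀ z, |c z| ≤ 1)
    (W : Finset Z) (hW : ∀ g z, γ g z ∈ W ↔ z ∈ W) (F : Set (Fin n → Pt Z B))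
    (hF : ∀ θ f, 0 < θ → GoodE (EE γ fx r) B θ f → (∀ y ∈ F, f y = 0) → ∀ y, |L f y| ≤ θ)
    (hFW : ∀ u ∈ F, ∀ i, (u i).1 ∈ W)
    {b : Fin n → Fin 4 × ℕ} (hb : ∀ j, (b j).2 ≤ 24 * B) {w : Fin n → Pt Z B}
    (hw : ∀ j, dd (b j) (w j).2 ≤ B) (i : Fin n) (h : Z) :
    |∑ z ∈ W, c z * xx γ L q b w i h z - c h| ≤
      3 * lam * r * ((q + 1) / B) + ((q + 1) / B + 2 * 1 / r) := by
  have h0 := NeZero.pos B
  have hB : (0 : ℝ) < B := by exact_mod_cast h0
  have e1 : ∑ z ∈ W, c z * xx γ L q b w i h z =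
      XC γ L q b w i h 0 (fun z => if z ∈ W then c z else 0) 0 0 := by
    have := ind_eq_sum W c (Equiv.refl Z)
    simp only [xx]
    rw [← XC_sum]
    exact congrArg (fun ξ => XC γ L q b w i h 0 ξ 0 0) this.symm
  have e2 : (fun z => if z ∈ W then c z else 0) = c - fun z => if z ∈ W then 0 else c z := by
    ext z
    simp only [Pi.sub_apply]
    split_ifs <;> simp
  have e3 := label hL hn hq hr hfx hc hc1 (upd_le hb i 0 (Nat.zero_le _)) (update_self _ _ _)
    (w := update w i (pt γ h 0 0)) (fun j => by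
      by_cases hj : j = i
      · subst hj
        simp only [update_self]
        exact dd_pt γ h 0 le_rfl (by omega) (by omega)
      · simpa [hj] using hw j)
  have e4 := hF _ _ (by positivity) (Tl_good γ fx hn hq.le hr hrB (upd_le hb i 0 (Nat.zero_le _))
    i (ξ := fun z => if z ∈ W then 0 else c z) (fun z => by
      split_ifs
      · simp
      · exact hc1 z) w) (fun u hu => by
      simp only [Tl_apply, al, if_pos (lab_mem γ W hW _ _ (hFW u hu i))]
      simp) (update w i (pt γ h 0 0))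
  rw [update_self, vtx_pt_zero] at e3
  rw [e1, e2]
  unfold XC
  rw [map_sub, map_sub, Pi.sub_apply]
  rw [abs_le] at e3 e4 ⊢
  constructor <;> linarith [e3.1, e3.2, e4.1, e4.2]

theorem main_ineq {c : Z → ℝ} (hG : GapSys Z γ c fx) (hL : SmProp γ fx r lam L) {s : ℝ}
    (hs : 0 < s) (hn : (n : ℝ) = s ^ 2) (hq : 0 < q) (hr : 0 < r) (hrB : r ≤ B) :
    1 / 3 ≤ 3 * lam * r * ((q + 1) / B) + ((q + 1) / B + 2 * 1 / r) +
      96 * (2 * (5 * n * lam * ((q + 1) / B + 2 * 1 / r)) + 48 * B / n *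
        (4 * lam * ((q / B * (2 * s) + 2 * (n / q / B)) + 2 * (2 * s) / r) +
        ((q + 2 * (n / q)) + 3 * lam * r *
          (n * (2 * ((q + 1) / B)) + 2 * (q + 2 * (n / q)) / r)) / B)) := by
  have hn' : (0 : ℝ) < n := by rw [hn]; positivity
  have hn0 : 0 < n := by exact_mod_cast hn'
  have h0 := NeZero.pos B
  have hB : (0 : ℝ) < B := by exact_mod_cast h0
  obtain ⟨-, hfx, hc, hc1, hgap⟩ := hG
  obtain ⟨F, hF, hF0⟩ := hL.2.2.2
  obtain ⟨W, H, _, ι, a, hne, hFW, hW, ha, hac, hP⟩ := hgap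
    (⋃ u ∈ F, Set.range fun i => (u i).1) (hF.biUnion fun u _ => Set.finite_range _)
  have hFW' : ∀ u ∈ F, ∀ i, (u i).1 ∈ W := fun u hu i =>
    hFW _ (Set.mem_biUnion hu ⟨i, rfl⟩)
  set e1 := 3 * lam * r * ((q + 1) / B) + ((q + 1) / B + 2 * 1 / r)
  set e2 := 2 * (5 * n * lam * ((q + 1) / B + 2 * 1 / r))
  set Ed := 4 * lam * ((q / B * (2 * s) + 2 * (n / q / B)) + 2 * (2 * s) / r)
  set Ec := (q + 2 * (n / q)) + 3 * lam * r *
          (n * (2 * ((q + 1) / B)) + 2 * (q + 2 * (n / q)) / r)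
  let Ω := H × Fin 4 × Fin 24 × Fin B × Bool
  let cen : Ω → Fin 4 × ℕ := fun o => (o.2.1, o.2.2.1 * B)
  let pos : Ω → Pt Z B := fun o => pt γ (ι o.1) o.2.1
    (if o.2.2.2.2 then o.2.2.1 * B + B else o.2.2.1 * B + o.2.2.2.1)
  have hcen : ∀ o, (cen o).2 + B ≤ 24 * B := fun o => by
    have : o.2.2.1.val + 1 ≤ 24 := o.2.2.1.2
    have := Nat.mul_le_mul_right B this
    simp only [cen]
    linarith
  have hpos : ∀ o, dd (cen o) (pos o).2 ≤ B := fun o => by
    have := hcen o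
    have := o.2.2.2.1.2
    simp only [cen] at *
    refine dd_pt γ _ _ ?_ ?_ ?_ <;> split_ifs <;> omega
  let ξ : (Fin n → Ω) → Fin n → Z → ℝ := fun ω i =>
    sgn γ L q W (cen ∘ ω) (pos ∘ ω) i (ι (ω i).1) (ω i).2.1
  let ξF : (Fin n → Ω) → Fin n → Z → ℝ := fun ω i => if (ω i).2.2.2.2 then 0 else ξ ω i
  let ξT : (Fin n → Ω) → Fin n → Z → ℝ := fun ω i => if (ω i).2.2.2.2 then ξ ω i else 0
  let Φ : Fin n → (Fin n → Ω) → ℝ := fun i ω =>
    (L (Tl γ q (cen ∘ ω) i (ξF ω i)) (update (pos ∘ ω) i (tau γ ((pos ∘ ω) i))) -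
      L (Tl γ q (cen ∘ ω) i (ξF ω i)) (pos ∘ ω)) +
    (L (Tl γ q (update (cen ∘ ω) i (((cen ∘ ω) i).1, ((cen ∘ ω) i).2 + B)) i (ξT ω i)) (pos ∘ ω) -
      L (Tl γ q (cen ∘ ω) i (ξT ω i)) (pos ∘ ω)) / B
  have hΦ : ∀ ω, ∑ i, Φ i ω ≤ Ed + Ec / B := by
    intro ω
    have d1 := drift hL hs hn hq hr hrB (b := cen ∘ ω)
      (fun j => by have := hcen (ω j); simp only [comp_apply]; omega) (ξ := ξF ω) (fun i z => by
        simp only [ξF]
        split_ifs
        · simp
        · exact sgn_abs ..) (pos ∘ ω)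
    have d2 := change hL hn0 hq hr hrB (b := cen ∘ ω) (fun j => hcen (ω j)) (ξ := ξT ω)
      (fun i z => by
        simp only [ξT]
        split_ifs
        · exact sgn_abs ..
        · simp) (pos ∘ ω)
    simp only [Φ]
    rw [sum_add_distrib, ← sum_div]
    exact add_le_add d1 (div_le_div_of_nonneg_right d2 hB.le)
  have hΦ2 : ∀ ω i, ∑ o, Φ i (update ω i o) = ∑ h, ∑ g,
      (XC γ L q (cen ∘ ω) (pos ∘ ω) i (ι h) g (sgn γ L q W (cen ∘ ω) (pos ∘ ω) i (ι h) g)
        (24 * B) (24 * B) -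
      XC γ L q (cen ∘ ω) (pos ∘ ω) i (ι h) g (sgn γ L q W (cen ∘ ω) (pos ∘ ω) i (ι h) g) 0 0) := by
    intro ω i
    simp only [Ω, Fintype.sum_prod_type]
    refine sum_congr rfl fun h _ => sum_congr rfl fun g _ => ?_
    rw [tele B]
    refine sum_congr rfl fun k _ => sum_congr rfl fun j _ => ?_
    have hj : k * B + j < 24 * B := by
      have := hcen (h, g, k, j, true)
      have := j.2
      simp only [cen] at *
      omega
    simp only [Fintype.sum_bool, Φ, ξF, ξT, ξ, comp_update, update_self, update_idem, sgn_update,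
      if_true, Bool.false_eq_true, if_false, map_zero, Pi.zero_apply, cen, pos, tau_pt γ _ _ hj, XC]
    ring
  have hH : (0 : ℝ) < Fintype.card H := by exact_mod_cast Fintype.card_pos
  have hmain : ∀ (ω : Fin n → Ω) i, (Fintype.card H : ℝ) * (1 / 3 - e1 - 96 * e2) ≤
      24 * ∑ o, Φ i (update ω i o) := by
    intro ω i
    have hb : ∀ j, ((cen ∘ ω) j).2 ≤ 24 * B := fun j => by
      have := hcen (ω j); simp only [comp_apply]; omega
    have p1 := hP (xx γ L q (cen ∘ ω) (pos ∘ ω) i)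
    have p2 : ∑ h, (a h * c (ι h) - e1) ≤
        ∑ h, ∑ z ∈ W, a h * c z * xx γ L q (cen ∘ ω) (pos ∘ ω) i (ι h) z := by
      refine sum_le_sum fun h _ => ?_
      have p3 : _ ≤ e1 := stepA hL hn0 hq hr hrB hfx hc hc1 W hW F hF0 hFW' hb (w := pos ∘ ω)
        (fun j => hpos (ω j)) i (ι h)
      simp only [mul_assoc, ← mul_sum]
      have p4 := neg_abs_le (a h * (∑ z ∈ W, c z * xx γ L q (cen ∘ ω) (pos ∘ ω) i (ι h) z - c (ι h)))
      rw [abs_mul] at p4
      have p5 := mul_le_mul (ha h) p3 (abs_nonneg _) zero_le_one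
      linarith
    have p6 := sum_le_sum (s := univ) fun g _ => sum_le_sum (s := univ) fun h _ =>
      show _ ≤ e2 + _ from stepB hL hn0 hq hr hrB W hb (pos ∘ ω) i (ι h) g
    rw [hΦ2, sum_comm]
    simp only [sum_add_distrib, sum_sub_distrib, sum_const, card_univ, Fintype.card_fin,
      nsmul_eq_mul] at p2 p6 ⊢
    push_cast at p6
    linarith
  have hsum := sum_le_sum (s := univ) fun (i : Fin n) _ =>
    sum_le_sum (s := univ) fun (ω : Fin n → Ω) _ => hmain ω i
  simp only [← mul_sum, resample] at hsum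
  have hsum2 := sum_le_sum (s := univ) fun (ω : Fin n → Ω) _ => hΦ ω
  rw [sum_comm] at hsum2
  have hΩ : (Fintype.card Ω : ℝ) = Fintype.card H * (192 * B) := by
    simp only [Ω, Fintype.card_prod, Fintype.card_fin, Fintype.card_bool]
    push_cast
    ring
  haveI : Nonempty Ω := ⟨(hne.some, 0, 0, 0, true)⟩
  have hY : (0 : ℝ) < Fintype.card (Fin n → Ω) := by exact_mod_cast Fintype.card_pos
  simp only [sum_const, card_univ, Fintype.card_fin, nsmul_eq_mul] at hsum hsum2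
  rw [hΩ] at hsum
  have f1 : (n : ℝ) * (1 / 3 - e1 - 96 * e2) ≤ 24 * (192 * B) * (Ed + Ec / B) := by
    refine le_of_mul_le_mul_left ?_ (mul_pos hH hY)
    have := mul_le_mul_of_nonneg_left hsum2 (show 0 ≤ 24 * (Fintype.card H * (192 * B) : ℝ) by
      positivity)
    linarith
  have f2 : 1 / 3 - e1 - 96 * e2 ≤ 24 * (192 * B) * (Ed + Ec / B) / n := by
    rw [le_div_iff₀ hn']
    linarith
  have f3 : 24 * (192 * B) * (Ed + Ec / B) / n = 96 * (48 * B / n * (Ed + Ec / B)) := by ring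
  linarith

end

end Vale.Agent.P090
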