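import Mathlib

/-!
Smoothing along commuting coordinate shifts, and Riesz products.
-/

namespace Vale.Agent.P090

noncomputable section

open Finset Function

theorem resample {ι Ω : Type} [Fintype ι] [DecidableEq ι] [Fintype Ω] (i : ι)
    (Φ : (ι → Ω) → ℝ) : ∑ ω, ∑ o, Φ (update ω i o) = Fintype.card Ω * ∑ ω, Φ ω := by
  let e : (ι → Ω) × Ω ≃ (ι → Ω) × Ω :=
    Function.Involutive.toPerm (fun p => (update p.1 i p.2, p.1 i)) (fun p => by simp)
  have h := e.sum_comp fun p => Φ p.1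
  rw [Fintype.sum_prod_type, Fintype.sum_prod_type] at h
  simp only [sum_const, card_univ, nsmul_eq_mul] at h
  rw [mul_sum, ← h]
  rfl

variable {X : Type} {n : ℕ} (τ : X → X)

/-- shift of the coordinates in `I` -/
def shift (I : Finset (Fin n)) (u : Fin n → X) : Fin n → X := fun i => if i ∈ I then τ (u i) else u i

/-- average over a cube of shifts -/
def sm (k : ℕ) : ((Fin n → X) → ℝ) →ₗ[ℝ] ((Fin n → X) → ℝ) where
  toFun H u := ((k : ℝ) ^ n)⁻¹ * ∑ t : Fin n → Fin k, H fun i => τ^[t i] (u i)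
  map_add' H G := by
    ext u
    simp [sum_add_distrib, mul_add]
  map_smul' c H := by
    ext u
    simp [← mul_sum]
    ring

theorem sm_apply (k : ℕ) (H : (Fin n → X) → ℝ) (u) :
    sm τ k H u = ((k : ℝ) ^ n)⁻¹ * ∑ t : Fin n → Fin k, H fun i => τ^[t i] (u i) := rfl

theorem sm_bound {k : ℕ} (hk : 0 < k) (H : (Fin n → X) → ℝ) (u) (a Λ : ℝ)
    (h : ∀ t : Fin n → Fin k, |H (fun i => τ^[t i] (u i)) - a| ≤ Λ) : |sm τ k H u - a| ≤ Λ := by
  have hp : (0 : ℝ) < (k : ℝ) ^ n := by positivity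
  have h1 : sm τ k H u - a =
      ((k : ℝ) ^ n)⁻¹ * ∑ t : Fin n → Fin k, (H (fun i => τ^[t i] (u i)) - a) := by
    rw [sm_apply, sum_sub_distrib]
    simp only [sum_const, card_univ, Fintype.card_pi, Fintype.card_fin, prod_const, nsmul_eq_mul]
    push_cast
    field_simp
  rw [h1, abs_mul, abs_inv, abs_of_pos hp, inv_mul_le_iff₀ hp]
  refine (abs_sum_le_sum_abs _ _).trans ((sum_le_sum fun t _ => h t).trans (le_of_eq ?_))
  simp

theorem iter_bound (H : (Fin n → X) → ℝ) (Λ : ℝ) (h : ∀ I u, |H (shift τ I u) - H u| ≤ Λ)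
    (k : ℕ) : ∀ (t : Fin n → ℕ), (∀ i, t i ≤ k) → ∀ u,
      |H (fun i => τ^[t i] (u i)) - H u| ≤ k * Λ := by
  induction k with
  | zero =>
    intro t ht u
    have : ∀ i, t i = 0 := fun i => Nat.le_zero.1 (ht i)
    simp [this]
  | succ k ih =>
    intro t ht u
    have h1 := ih (fun i => t i - 1) (fun i => by have := ht i; omega) u
    have h2 := h (univ.filter fun i => t i ≠ 0) fun i => τ^[t i - 1] (u i)
    have h3 : shift τ (univ.filter fun i => t i ≠ 0) (fun i => τ^[t i - 1] (u i)) =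
        fun i => τ^[t i] (u i) := by
      ext i
      unfold shift
      by_cases hi : t i = 0
      · simp [hi]
      · rw [if_pos (by simpa using hi), ← Function.iterate_succ_apply' τ]
        congr 1
        omega
    rw [h3] at h2
    have := abs_sub_le (H fun i => τ^[t i] (u i)) (H fun i => τ^[t i - 1] (u i)) (H u)
    push_cast
    linarith

theorem sm_close {k : ℕ} (hk : 0 < k) (H : (Fin n → X) → ℝ) (Λ : ℝ)
    (h : ∀ I u, |H (shift τ I u) - H u| ≤ Λ) (u) : |sm τ k H u - H u| ≤ k * Λ :=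
  sm_bound τ hk H u _ _ fun t => iter_bound τ H Λ h k (fun i => t i) (fun i => (t i).2.le) u

theorem sm_step {k : ℕ} (hk : 0 < k) (G : (Fin n → X) → ℝ) (Λ : ℝ) (h : ∀ u, |G u| ≤ Λ) (u)
    (i : Fin n) : |sm τ k G (update u i (τ (u i))) - sm τ k G u| ≤ 2 * Λ / k := by
  have hp : (0 : ℝ) < (k : ℝ) ^ n := by positivity
  have hk' : (0 : ℝ) < k := by positivity
  let Φ : (Fin n → Fin k) → ℝ := fun t =>
    G (fun j => τ^[t j] (update u i (τ (u i)) j)) - G fun j => τ^[t j] (u j)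
  have h1 := resample i Φ
  have h2 : ∀ t : Fin n → Fin k, |∑ o, Φ (update t i o)| ≤ 2 * Λ := by
    intro t
    let g : ℕ → ℝ := fun j => G (update (fun j => τ^[t j] (u j)) i (τ^[j] (u i)))
    have h3 : ∀ o : Fin k, Φ (update t i o) = g (o + 1) - g o := by
      intro o
      simp only [Φ, g]
      congr 2
      · ext j
        by_cases hj : j = i
        · subst hj; simp
        · simp [hj]
      · ext j
        by_cases hj : j = i
        · subst hj; simp
        · simp [hj]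
    simp only [h3]
    rw [Fin.sum_univ_eq_sum_range (fun j => g (j + 1) - g j), sum_range_sub]
    have := h (update (fun j => τ^[t j] (u j)) i (τ^[k] (u i)))
    have := h (update (fun j => τ^[t j] (u j)) i (τ^[0] (u i)))
    exact (abs_sub _ _).trans (by simp only [g]; linarith)
  have h4 : |∑ t, ∑ o, Φ (update t i o)| ≤ (k : ℝ) ^ n * (2 * Λ) := by
    refine (abs_sum_le_sum_abs _ _).trans ((sum_le_sum fun t _ => h2 t).trans (le_of_eq ?_))
    simp
  rw [h1, Fintype.card_fin, abs_mul, abs_of_pos hk'] at h4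
  rw [sm_apply, sm_apply, ← mul_sub, ← sum_sub_distrib, abs_mul, abs_inv, abs_of_pos hp,
    inv_mul_le_iff₀ hp, ← mul_div_assoc, le_div_iff₀ hk', mul_comm]
  exact h4

theorem sm_shift (k : ℕ) (H : (Fin n → X) → ℝ) (I) (u) :
    sm τ k H (shift τ I u) - sm τ k H u = sm τ k (fun u => H (shift τ I u) - H u) u := by
  rw [sm_apply, sm_apply, sm_apply, ← mul_sub, ← sum_sub_distrib]
  congr 1
  refine sum_congr rfl fun t _ => ?_
  congr 2
  ext j
  unfold shift
  split_ifs
  · rw [← Function.iterate_succ_apply, Function.iterate_succ_apply']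
  · rfl

theorem sm_lin {k : ℕ} (hk : 0 < k) (H : (Fin n → X) → ℝ) (Λ : ℝ)
    (h : ∀ I u, |H (shift τ I u) - H u| ≤ Λ) (u) (I : Finset (Fin n)) :
    |sm τ k H (shift τ I u) - sm τ k H u -
      ∑ i ∈ I, (sm τ k H (update u i (τ (u i))) - sm τ k H u)| ≤ I.card * (2 * Λ / k) := by
  induction I using Finset.induction_on with
  | empty =>
    have : shift τ ∅ u = u := by ext i; simp [shift]
    simp [this]
  | insert i I hi ih =>
    have h1 : shift τ (insert i I) u = shift τ I (update u i (τ (u i))) := by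
      ext j
      unfold shift
      by_cases hj : j = i
      · subst hj; simp [hi]
      · simp [hj]
    have h2 := sm_step τ hk (fun u => H (shift τ I u) - H u) Λ (h I) u i
    rw [← sm_shift, ← sm_shift] at h2
    rw [sum_insert hi, card_insert_of_notMem hi, h1]
    push_cast
    rw [abs_le] at ih h2 ⊢
    constructor <;> linarith [ih.1, ih.2, h2.1, h2.2]

theorem sm_sum (hn : 0 < n) (H : (Fin n → X) → ℝ) (Λ : ℝ)
    (h : ∀ I u, |H (shift τ I u) - H u| ≤ Λ) (u) (I : Finset (Fin n)) :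
    |∑ i ∈ I, (sm τ (2 * n) H (update u i (τ (u i))) - sm τ (2 * n) H u)| ≤ 2 * Λ := by
  have hk : 0 < 2 * n := by omega
  have h1 := sm_lin τ hk H Λ h u I
  have h2 : |sm τ (2 * n) H (shift τ I u) - sm τ (2 * n) H u| ≤ Λ := by
    rw [sm_shift]
    simpa using sm_bound τ hk (fun u => H (shift τ I u) - H u) u 0 Λ fun t => by
      simpa using h I _
  have hΛ : 0 ≤ Λ := (abs_nonneg _).trans (h ∅ u)
  have h3 : (I.card : ℝ) * (2 * Λ / (2 * n : ℕ)) ≤ Λ := by
    have hn' : (0 : ℝ) < n := by exact_mod_cast hn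
    have h4 : (I.card : ℝ) ≤ n := by exact_mod_cast (by simpa using card_le_univ I)
    calc _ ≤ (n : ℝ) * (2 * Λ / (2 * n : ℕ)) := mul_le_mul_of_nonneg_right h4 (by positivity)
      _ = Λ := by push_cast; field_simp
  rw [abs_le] at h1 h2 ⊢
  constructor <;> linarith [h1.1, h1.2, h2.1, h2.2]

/-- sign attached to a Boolean -/
def sg (b : Bool) : ℝ := if b then 1 else -1

/-- Riesz product -/
def rz (s : ℝ) (ε : Fin n → Bool) (a : Fin n → ℝ) : ℝ :=
  s * (∏ j, (1 + Complex.I * ((sg (ε j) * a j / s : ℝ) : ℂ))).im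

theorem rz_avg {s : ℝ} (hs : s ≠ 0) (a : Fin n → ℝ) (i : Fin n) :
    ∑ ε : Fin n → Bool, sg (ε i) * rz s ε a = 2 ^ n * a i := by
  have h := prod_univ_sum (fun _ : Fin n => (univ : Finset Bool)) fun j b =>
    (if j = i then (sg b : ℂ) else 1) * (1 + Complex.I * ((sg b * a j / s : ℝ) : ℂ))
  have h1 : ∀ j, ∑ b : Bool, (if j = i then (sg b : ℂ) else 1) *
      (1 + Complex.I * ((sg b * a j / s : ℝ) : ℂ)) =
      2 * if j = i then Complex.I * ((a i / s : ℝ) : ℂ) else 1 := by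
    intro j
    by_cases hj : j = i
    · subst hj
      simp [sg]
      ring
    · simp [sg, hj]
      ring
  simp only [h1, prod_mul_distrib, prod_ite_eq', mem_univ, if_true, prod_const, card_univ,
    Fintype.card_fin, Fintype.piFinset_univ] at h
  have h2 := congrArg Complex.im h
  rw [Complex.im_sum] at h2
  simp only [Complex.im_ofReal_mul] at h2
  have h3 : ((2 : ℂ) ^ n * (Complex.I * ((a i / s : ℝ) : ℂ))).im = 2 ^ n * (a i / s) := by
    rw [show (2 : ℂ) ^ n = ((2 ^ n : ℝ) : ℂ) by push_cast; rfl, Complex.im_ofReal_mul]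
    simp
  rw [h3] at h2
  unfold rz
  simp only [mul_left_comm _ s]
  rw [← mul_sum, ← h2]
  field_simp

theorem norm_factor (x : ℝ) : ‖1 + Complex.I * (x : ℂ)‖ ≤ Real.exp (x ^ 2 / 2) := by
  refine abs_le_of_sq_le_sq' ?_ (Real.exp_pos _).le |>.2
  rw [← Complex.normSq_eq_norm_sq, Complex.normSq_apply, ← Real.exp_nat_mul]
  have := Real.add_one_le_exp (x ^ 2)
  simp
  rw [show 2 * (x ^ 2 / 2) = x ^ 2 by ring]
  nlinarith

theorem prod_lip {ι : Type} (I : Finset ι) (c : ℝ) (hc : 1 ≤ c) (z w : ι → ℂ)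
    (hz : ∀ j, ‖z j‖ ≤ c) (hw : ∀ j, ‖w j‖ ≤ c) :
    ‖∏ j ∈ I, z j - ∏ j ∈ I, w j‖ ≤ c ^ I.card * ∑ j ∈ I, ‖z j - w j‖ := by
  classical
  induction I using Finset.induction_on with
  | empty => simp
  | insert i I hi ih =>
    rw [prod_insert hi, prod_insert hi, sum_insert hi, card_insert_of_notMem hi]
    have h1 : z i * ∏ j ∈ I, z j - w i * ∏ j ∈ I, w j =
        z i * (∏ j ∈ I, z j - ∏ j ∈ I, w j) + (z i - w i) * ∏ j ∈ I, w j := by ring
    have h2 : ‖∏ j ∈ I, w j‖ ≤ c ^ I.card := by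
      rw [norm_prod, ← prod_const]
      exact prod_le_prod (fun _ _ => norm_nonneg _) fun j _ => hw j
    have h3 : c ^ I.card ≤ c ^ (I.card + 1) := pow_le_pow_right₀ hc (by omega)
    rw [h1]
    refine (norm_add_le _ _).trans ?_
    rw [norm_mul, norm_mul]
    have h4 := mul_le_mul (hz i) ih (norm_nonneg _) (by linarith)
    have h5 := mul_le_mul_of_nonneg_left (h2.trans h3) (norm_nonneg (z i - w i))
    rw [mul_add, pow_succ] at *
    nlinarith

theorem exp_half : Real.exp (1 / 2) ≤ 2 := by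
  refine abs_le_of_sq_le_sq' ?_ (by norm_num) |>.2
  rw [← Real.exp_nat_mul]
  have := Real.exp_one_lt_d9
  norm_num
  linarith

theorem factor_le {s : ℝ} (hs : 0 < s) (b : Bool) {a : ℝ} (ha : |a| ≤ 1) :
    ‖1 + Complex.I * ((sg b * a / s : ℝ) : ℂ)‖ ≤ Real.exp (1 / (2 * s ^ 2)) := by
  refine (norm_factor _).trans (Real.exp_le_exp.2 ?_)
  have h1 : (sg b * a) ^ 2 ≤ 1 := by
    have : sg b ^ 2 = 1 := by unfold sg; split_ifs <;> simp
    rw [mul_pow, this, one_mul]
    exact (sq_le_one_iff_abs_le_one a).2 ha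
  rw [div_pow, div_div, mul_comm (s ^ 2)]
  exact div_le_div_of_nonneg_right h1 (by positivity)

theorem exp_pow_le {s : ℝ} (hs : 0 < s) (hn : (n : ℝ) = s ^ 2) :
    Real.exp (1 / (2 * s ^ 2)) ^ n ≤ 2 := by
  rw [← Real.exp_nat_mul, hn]
  refine le_trans (le_of_eq ?_) exp_half
  congr 1
  field_simp

theorem rz_bound {s : ℝ} (hs : 0 < s) (hn : (n : ℝ) = s ^ 2) (ε : Fin n → Bool) (a : Fin n → ℝ)
    (ha : ∀ j, |a j| ≤ 1) : |rz s ε a| ≤ 2 * s := by
  unfold rz
  rw [abs_mul, abs_of_pos hs, mul_comm]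
  refine mul_le_mul_of_nonneg_right ((Complex.abs_im_le_norm _).trans ?_) hs.le
  refine le_trans ?_ (exp_pow_le hs hn)
  rw [norm_prod]
  refine (prod_le_prod (fun _ _ => norm_nonneg _) fun j _ => factor_le hs (ε j) (ha j)).trans ?_
  simp

theorem rz_lip {s : ℝ} (hs : 0 < s) (hn : (n : ℝ) = s ^ 2) (ε : Fin n → Bool) (a a' : Fin n → ℝ)
    (ha : ∀ j, |a j| ≤ 1) (ha' : ∀ j, |a' j| ≤ 1) :
    |rz s ε a - rz s ε a'| ≤ 2 * ∑ j, |a j - a' j| := by
  unfold rz
  rw [← mul_sub, ← Complex.sub_im, abs_mul, abs_of_pos hs]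
  have h1 := prod_lip univ (Real.exp (1 / (2 * s ^ 2))) (Real.one_le_exp (by positivity)) _ _
    (fun j => factor_le hs (ε j) (ha j)) (fun j => factor_le hs (ε j) (ha' j))
  have h2 : ∀ j, ‖1 + Complex.I * ((sg (ε j) * a j / s : ℝ) : ℂ) -
      (1 + Complex.I * ((sg (ε j) * a' j / s : ℝ) : ℂ))‖ = |a j - a' j| / s := by
    intro j
    rw [add_sub_add_left_eq_sub, ← mul_sub, norm_mul, Complex.norm_I, one_mul,
      ← Complex.ofReal_sub, Complex.norm_real, Real.norm_eq_abs, ← sub_div, ← mul_sub, abs_div,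
      abs_mul, abs_of_pos hs]
    have : |sg (ε j)| = 1 := by unfold sg; split_ifs <;> simp
    rw [this, one_mul]
  simp only [h2, card_univ, Fintype.card_fin, ← sum_div] at h1
  have h3 := mul_le_mul_of_nonneg_right (exp_pow_le hs hn)
    (show 0 ≤ (∑ j, |a j - a' j|) / s from div_nonneg (sum_nonneg fun _ _ => abs_nonneg _) hs.le)
  have h4 := ((Complex.abs_im_le_norm _).trans h1).trans h3
  calc _ ≤ s * (2 * ((∑ j, |a j - a' j|) / s)) := mul_le_mul_of_nonneg_left h4 hs.le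
    _ = _ := by field_simp

end

end Vale.Agent.P090
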