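import Vale.Agent.P090.Geo
import Vale.Agent.P090.Smooth
import Vale.Agent.P090.Glue

/-!
Test functions on the product space and the three estimates: drift, change of centre, label.
-/

namespace Vale.Agent.P090

noncomputable section

open Finset Function

variable {Z : Type} (γ : Fin 4 → Z ≃ Z) (fx : Z → Z) {B : ℕ} [NeZero B] {n : ℕ}

/-- constraints of the product space -/
def EE (r : ℝ) (u u' : Fin n → Pt Z B) (w : ℝ) : Prop :=
  ((∀ i, Step1 γ (u i) (u' i)) ∧ w = 1) ∨ (u' = (fun i => att γ fx (u i)) ∧ w = r)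

theorem good_of_bounds {r s σ : ℝ} (hr : 0 < r) (hrB : r ≤ B) (hσ : 0 ≤ σ)
    (f : (Fin n → Pt Z B) → ℝ) (h1 : ∀ u, |f u| ≤ s)
    (h2 : ∀ u u', (∀ i, Step1 γ (u i) (u' i)) → |f u - f u'| ≤ σ) (u0 : Fin n → Pt Z B) :
    GoodE (EE γ fx r) B (σ + 2 * s / r) f := by
  have hs : 0 ≤ s := (abs_nonneg _).trans (h1 u0)
  have h3 : 0 ≤ 2 * s / r := by positivity
  have h4 : 2 * s / r * r = 2 * s := by field_simp
  constructor
  · rintro u u' w (⟨h, rfl⟩ | ⟨rfl, rfl⟩)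
    · linarith [h2 u u' h]
    · refine (abs_sub _ _).trans ?_
      have := h1 u
      have := h1 fun i => att γ fx (u i)
      nlinarith
  · intro u
    have := h1 u
    nlinarith

theorem good_of_att {r σ : ℝ} (hr : 0 ≤ r) (hσ : 0 ≤ σ)
    (f : (Fin n → Pt Z B) → ℝ) (h1 : ∀ u, |f u| ≤ σ * B)
    (h2 : ∀ u u', (∀ i, Step1 γ (u i) (u' i)) → |f u - f u'| ≤ σ)
    (h3 : ∀ u, f (fun i => att γ fx (u i)) = f u) : GoodE (EE γ fx r) B σ f := by
  refine ⟨?_, h1⟩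
  rintro u u' w (⟨h, rfl⟩ | ⟨rfl, rfl⟩)
  · linarith [h2 u u' h]
  · rw [h3, sub_self, abs_zero]
    positivity

/-- properties of the smoothed operator -/
def SmProp (r lam : ℝ) (L : ((Fin n → Pt Z B) → ℝ) →ₗ[ℝ] ((Fin n → Pt Z B) → ℝ)) : Prop :=
  (∀ θ f, 0 < θ → GoodE (EE γ fx r) B θ f → ∀ u u', (∀ i, Step1 γ (u i) (u' i)) →
    |L f u - L f u'| ≤ 5 * n * lam * θ) ∧
  (∀ θ f, 0 < θ → GoodE (EE γ fx r) B θ f → ∀ u,
    |L f u - f (fun i => att γ fx (u i))| ≤ 3 * lam * r * θ) ∧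
  (∀ θ f, 0 < θ → GoodE (EE γ fx r) B θ f → ∀ u (I : Finset (Fin n)),
    |∑ i ∈ I, (L f (update u i (tau γ (u i))) - L f u)| ≤ 2 * lam * θ) ∧
  ∃ F : Set (Fin n → Pt Z B), F.Finite ∧ ∀ θ f, 0 < θ → GoodE (EE γ fx r) B θ f →
    (∀ y ∈ F, f y = 0) → ∀ y, |L f y| ≤ θ

theorem att_finite (hfx : (Set.range fx).Finite) :
    (Set.range fun (u : Fin n → Pt Z B) i => att γ fx (u i)).Finite := by
  refine (Set.Finite.pi' (t := fun _ : Fin n => (Set.range fx ×ˢ Set.univ : Set (Pt Z B)))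
    fun _ => hfx.prod Set.finite_univ).subset ?_
  rintro _ ⟨u, rfl⟩ i
  exact ⟨⟨_, rfl⟩, trivial⟩

theorem smProp_of_op (hn : 0 < n) {r lam : ℝ} (hr : 2 * n ≤ r) (hlam : 1 ≤ lam)
    {L : ((Fin n → Pt Z B) → ℝ) →ₗ[ℝ] ((Fin n → Pt Z B) → ℝ)}
    (h : OpProp (EE γ fx r) B lam (Set.range fun (u : Fin n → Pt Z B) i => att γ fx (u i)) L) :
    SmProp γ fx r lam ((sm (tau γ) (2 * n)).comp L) := by
  obtain ⟨h1, h2, F, hF, h3⟩ := h
  have hk : 0 < 2 * n := by omega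
  have hn' : (1 : ℝ) ≤ n := by exact_mod_cast hn
  have hsh : ∀ θ f, 0 < θ → GoodE (EE γ fx r) B θ f → ∀ I u,
      |L f (shift (tau γ) I u) - L f u| ≤ lam * θ := by
    intro θ f hθ hf I u
    have := h1 θ f hθ hf u (shift (tau γ) I u) 1 (Or.inl ⟨fun i => by
      unfold shift
      split_ifs
      · exact Or.inr (Or.inl rfl)
      · exact Or.inl rfl, rfl⟩)
    rwa [mul_one, abs_sub_comm] at this
  refine ⟨?_, ?_, ?_, F, hF, ?_⟩
  · intro θ f hθ hf u u' hu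
    have e1 := sm_close (tau γ) hk (L f) _ (hsh θ f hθ hf) u
    have e2 := sm_close (tau γ) hk (L f) _ (hsh θ f hθ hf) u'
    have e3 := h1 θ f hθ hf u u' 1 (Or.inl ⟨hu, rfl⟩)
    have e4 : lam * θ ≤ n * (lam * θ) := le_mul_of_one_le_left (by positivity) hn'
    simp only [LinearMap.comp_apply]
    push_cast at e1 e2
    rw [abs_le] at e1 e2 e3 ⊢
    constructor <;> linarith [e1.1, e1.2, e2.1, e2.2, e3.1, e3.2]
  · intro θ f hθ hf u
    have e1 := sm_close (tau γ) hk (L f) _ (hsh θ f hθ hf) u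
    have e2 := h1 θ f hθ hf u _ r (Or.inr ⟨rfl, rfl⟩)
    have e3 := h2 θ f hθ hf _ ⟨u, rfl⟩
    have e4 : 2 * n * (lam * θ) ≤ r * (lam * θ) := mul_le_mul_of_nonneg_right hr (by positivity)
    have e5 : θ ≤ r * lam * θ := le_mul_of_one_le_left hθ.le (by nlinarith)
    simp only [LinearMap.comp_apply]
    push_cast at e1
    rw [abs_le] at e1 e2 e3 ⊢
    constructor <;> linarith [e1.1, e1.2, e2.1, e2.2, e3.1, e3.2]
  · intro θ f hθ hf u I
    have := sm_sum (tau γ) hn (L f) _ (hsh θ f hθ hf) u I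
    rw [← mul_assoc] at this
    exact this
  · intro θ f hθ hf h0 u
    simpa using sm_bound (tau γ) hk (L f) u 0 θ fun t => by simpa using h3 θ f hθ hf h0 _

/-- localized test functions -/
def Tl (q : ℝ) (b : Fin n → Fin 4 × ℕ) (i : Fin n) : (Z → ℝ) →ₗ[ℝ] ((Fin n → Pt Z B) → ℝ) where
  toFun ξ u := chi q b u * al γ (b i) ξ (u i)
  map_add' ξ η := by
    ext u
    simp only [al, Pi.add_apply]
    ring
  map_smul' c ξ := by
    ext u
    simp only [al, Pi.smul_apply, smul_eq_mul, RingHom.id_apply]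
    ring

omit [NeZero B] in
theorem Tl_apply (q : ℝ) (b : Fin n → Fin 4 × ℕ) (i : Fin n) (ξ) (u : Fin n → Pt Z B) :
    Tl γ q b i ξ u = chi q b u * al γ (b i) ξ (u i) := rfl

omit [NeZero B] in
theorem Tl_abs {q : ℝ} (hq : 0 ≤ q) (b : Fin n → Fin 4 × ℕ) (i : Fin n) {ξ : Z → ℝ}
    (hξ : ∀ z, |ξ z| ≤ 1) (u : Fin n → Pt Z B) : |Tl γ q b i ξ u| ≤ 1 := by
  rw [Tl_apply, abs_mul, abs_of_nonneg (chi_nonneg _ _ _)]
  exact mul_le_one₀ (chi_le_one hq _ _) (abs_nonneg _) (al_abs γ hξ _ _)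

theorem Tl_step (hn : 0 < n) {q : ℝ} (hq : 0 ≤ q) {b : Fin n → Fin 4 × ℕ}
    (hb : ∀ j, (b j).2 ≤ 24 * B) (i : Fin n) {ξ : Z → ℝ} (hξ : ∀ z, |ξ z| ≤ 1)
    {u u' : Fin n → Pt Z B} (h : ∀ j, Step1 γ (u j) (u' j)) :
    |Tl γ q b i ξ u - Tl γ q b i ξ u'| ≤ (q + 1) / B := by
  have hB : (0 : ℝ) < B := by exact_mod_cast NeZero.pos B
  have e : Tl γ q b i ξ u - Tl γ q b i ξ u' = (chi q b u - chi q b u') * al γ (b i) ξ (u' i) +
      chi q b u * (al γ (b i) ξ (u i) - al γ (b i) ξ (u' i)) := by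
    simp only [Tl_apply]; ring
  rw [e, add_div]
  refine (abs_add_le _ _).trans (add_le_add ?_ ?_)
  · rw [abs_mul]
    exact (mul_le_of_le_one_right (abs_nonneg _) (al_abs γ hξ _ _)).trans (chi_step γ hn hq hb h)
  · rw [abs_mul, abs_of_nonneg (chi_nonneg _ _ _)]
    refine (mul_le_of_le_one_left (abs_nonneg _) (chi_le_one hq _ _)).trans ?_
    exact (al_step γ hξ (hb i) (h i)).trans (div_le_div_of_nonneg_right (far_le_one _ _) hB.le)

theorem Tl_good (hn : 0 < n) {q r : ℝ} (hq : 0 ≤ q) (hr : 0 < r) (hrB : r ≤ B)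
    {b : Fin n → Fin 4 × ℕ} (hb : ∀ j, (b j).2 ≤ 24 * B) (i : Fin n) {ξ : Z → ℝ}
    (hξ : ∀ z, |ξ z| ≤ 1) (u0 : Fin n → Pt Z B) :
    GoodE (EE γ fx r) B ((q + 1) / B + 2 * 1 / r) (Tl γ q b i ξ : (Fin n → Pt Z B) → ℝ) :=
  good_of_bounds γ fx hr hrB (by positivity) _ (Tl_abs γ hq b i hξ)
    (fun _ _ h => Tl_step γ hn hq hb i hξ h) u0

variable {γ fx}

theorem drift {r lam s q : ℝ} {L : ((Fin n → Pt Z B) → ℝ) →ₗ[ℝ] ((Fin n → Pt Z B) → ℝ)}
    (hL : SmProp γ fx r lam L) (hs : 0 < s) (hn : (n : ℝ) = s ^ 2) (hq : 0 < q) (hr : 0 < r)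
    (hrB : r ≤ B) {b : Fin n → Fin 4 × ℕ} (hb : ∀ j, (b j).2 ≤ 24 * B) {ξ : Fin n → Z → ℝ}
    (hξ : ∀ i z, |ξ i z| ≤ 1) (w : Fin n → Pt Z B) :
    ∑ i, (L (Tl γ q b i (ξ i)) (update w i (tau γ (w i))) - L (Tl γ q b i (ξ i)) w) ≤
      4 * lam * ((q / B * (2 * s) + 2 * (n / q / B)) + 2 * (2 * s) / r) := by
  have hn0 : 0 < n := by
    have : (0 : ℝ) < n := by rw [hn]; positivity
    exact_mod_cast this
  have hB : (0 : ℝ) < B := by exact_mod_cast NeZero.pos B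
  let G : (Fin n → Bool) → (Fin n → Pt Z B) → ℝ := fun ε u =>
    chi q b u * rz s ε fun j => al γ (b j) (ξ j) (u j)
  have hG : ∀ ε, GoodE (EE γ fx r) B ((q / B * (2 * s) + 2 * (n / q / B)) + 2 * (2 * s) / r)
      (G ε) := by
    intro ε
    refine good_of_bounds γ fx hr hrB (by positivity) _ (fun u => ?_) (fun u u' h => ?_) w
    · simp only [G]
      rw [abs_mul, abs_of_nonneg (chi_nonneg _ _ _)]
      exact (mul_le_of_le_one_left (abs_nonneg _) (chi_le_one hq.le _ _)).trans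
        (rz_bound hs hn ε _ fun j => al_abs γ (hξ j) _ _)
    · have e : G ε u - G ε u' = (chi q b u - chi q b u') *
          (rz s ε fun j => al γ (b j) (ξ j) (u' j)) + chi q b u *
          ((rz s ε fun j => al γ (b j) (ξ j) (u j)) - rz s ε fun j => al γ (b j) (ξ j) (u' j)) := by
        simp only [G]; ring
      rw [e]
      refine (abs_add_le _ _).trans (add_le_add ?_ ?_)
      · rw [abs_mul]
        exact mul_le_mul (chi_step γ hn0 hq.le hb h)
          (rz_bound hs hn ε _ fun j => al_abs γ (hξ j) _ _) (abs_nonneg _) (by positivity)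
      · rw [abs_mul, abs_of_nonneg (chi_nonneg _ _ _)]
        have e1 := rz_lip hs hn ε _ _ (fun j => al_abs γ (hξ j) (b j) (u j))
          (fun j => al_abs γ (hξ j) (b j) (u' j))
        have e2 : ∑ j, |al γ (b j) (ξ j) (u j) - al γ (b j) (ξ j) (u' j)| ≤
            (∑ j, far (b j) (u j)) / B := by
          rw [sum_div]
          exact sum_le_sum fun j _ => al_step γ (hξ j) (hb j) (h j)
        have e3 := div_le_div_of_nonneg_right (chi_far hn0 hq b u) hB.le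
        calc _ ≤ chi q b u * (2 * ((∑ j, far (b j) (u j)) / B)) :=
              mul_le_mul_of_nonneg_left (e1.trans (by linarith)) (chi_nonneg _ _ _)
          _ = 2 * (chi q b u * (∑ j, far (b j) (u j)) / B) := by ring
          _ ≤ _ := by linarith
  have hT : ∀ i v, L (Tl γ q b i (ξ i)) v = ((2 : ℝ) ^ n)⁻¹ * ∑ ε, sg (ε i) * L (G ε) v := by
    intro i v
    have : (Tl γ q b i (ξ i) : (Fin n → Pt Z B) → ℝ) =
        ((2 : ℝ) ^ n)⁻¹ • ∑ ε : Fin n → Bool, sg (ε i) • G ε := by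
      ext u
      simp only [Tl_apply, G, Pi.smul_apply, Finset.sum_apply, smul_eq_mul, mul_left_comm _ (chi q b u)]
      rw [← mul_sum, rz_avg hs.ne']
      field_simp
    rw [this]
    simp
  set θ := (q / B * (2 * s) + 2 * (n / q / B)) + 2 * (2 * s) / r
  have hθ : 0 < θ := by positivity
  have key : ∀ ε : Fin n → Bool, ∑ i, sg (ε i) *
      (L (G ε) (update w i (tau γ (w i))) - L (G ε) w) ≤ 4 * lam * θ := by
    intro ε
    have e1 := hL.2.2.1 θ _ hθ (hG ε) w (univ.filter fun i => ε i = true)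
    have e2 := hL.2.2.1 θ _ hθ (hG ε) w (univ.filter fun i => ¬ε i = true)
    simp only [sg, ite_mul, one_mul, neg_mul]
    rw [sum_ite, sum_neg_distrib]
    linarith [le_abs_self (∑ i ∈ univ.filter fun i => ε i = true,
      (L (G ε) (update w i (tau γ (w i))) - L (G ε) w)), neg_abs_le
      (∑ i ∈ univ.filter fun i => ¬ε i = true, (L (G ε) (update w i (tau γ (w i))) - L (G ε) w))]
  simp only [hT, ← mul_sub, ← sum_sub_distrib]
  rw [← mul_sum, sum_comm, inv_mul_le_iff₀ (by positivity)]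
  refine (sum_le_sum fun ε _ => key ε).trans (le_of_eq ?_)
  simp

theorem change {r lam q : ℝ} {L : ((Fin n → Pt Z B) → ℝ) →ₗ[ℝ] ((Fin n → Pt Z B) → ℝ)}
    (hL : SmProp γ fx r lam L) (hn : 0 < n) (hq : 0 < q) (hr : 0 < r)
    (hrB : r ≤ B) {b : Fin n → Fin 4 × ℕ} (hb : ∀ j, (b j).2 + B ≤ 24 * B) {ξ : Fin n → Z → ℝ}
    (hξ : ∀ i z, |ξ i z| ≤ 1) (w : Fin n → Pt Z B) :
    ∑ i, (L (Tl γ q (update b i ((b i).1, (b i).2 + B)) i (ξ i)) w - L (Tl γ q b i (ξ i)) w) ≤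
      (q + 2 * (n / q)) + 3 * lam * r * (n * (2 * ((q + 1) / B)) + 2 * (q + 2 * (n / q)) / r) := by
  have hn' : (0 : ℝ) < n := by exact_mod_cast hn
  have hB : (0 : ℝ) < B := by exact_mod_cast NeZero.pos B
  let Ψ : (Fin n → Pt Z B) → ℝ :=
    ∑ i, (Tl γ q (update b i ((b i).1, (b i).2 + B)) i (ξ i) - Tl γ q b i (ξ i))
  have hb1 : ∀ j, (b j).2 ≤ 24 * B := fun j => by have := hb j; omega
  have hb2 : ∀ i j, (update b i ((b i).1, (b i).2 + B) j).2 ≤ 24 * B := by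
    intro i j
    by_cases hj : j = i
    · subst hj; simpa using hb j
    · simpa [hj] using hb1 j
  have h1 : ∀ u, |Ψ u| ≤ q + 2 * (n / q) := by
    intro u
    have e1 : ∀ i, |Tl γ q (update b i ((b i).1, (b i).2 + B)) i (ξ i) u - Tl γ q b i (ξ i) u| ≤
        q / n + 2 * (chi q b u * far (b i) (u i)) := by
      intro i
      have e : Tl γ q (update b i ((b i).1, (b i).2 + B)) i (ξ i) u - Tl γ q b i (ξ i) u =
          (chi q (update b i ((b i).1, (b i).2 + B)) u - chi q b u) *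
            al γ ((b i).1, (b i).2 + B) (ξ i) (u i) + chi q b u *
            (al γ ((b i).1, (b i).2 + B) (ξ i) (u i) - al γ (b i) (ξ i) (u i)) := by
        simp only [Tl_apply, update_self]; ring
      rw [e]
      refine (abs_add_le _ _).trans (add_le_add ?_ ?_)
      · rw [abs_mul]
        exact (mul_le_of_le_one_right (abs_nonneg _) (al_abs γ (hξ i) _ _)).trans
          (chi_update hq.le b i _ u)
      · rw [abs_mul, abs_of_nonneg (chi_nonneg _ _ _), mul_left_comm]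
        refine mul_le_mul_of_nonneg_left ?_ (chi_nonneg _ _ _)
        unfold far
        split_ifs with h
        · refine (abs_sub _ _).trans ?_
          linarith [al_abs γ (hξ i) ((b i).1, (b i).2 + B) (u i), al_abs γ (hξ i) (b i) (u i)]
        · rw [al_shift γ (ξ i) (b i).1 (hb i) (u i) (not_le.1 h)]
          simp
    simp only [Ψ, Finset.sum_apply, Pi.sub_apply]
    refine (abs_sum_le_sum_abs _ _).trans ((sum_le_sum fun i _ => e1 i).trans ?_)
    rw [sum_add_distrib, ← mul_sum, ← mul_sum]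
    have e2 := chi_far hn hq b u
    have e3 : ∑ _i : Fin n, q / n = q := by
      simp only [sum_const, card_univ, Fintype.card_fin, nsmul_eq_mul]
      field_simp
    linarith
  have h2 : ∀ u u', (∀ i, Step1 γ (u i) (u' i)) → |Ψ u - Ψ u'| ≤ n * (2 * ((q + 1) / B)) := by
    intro u u' h
    simp only [Ψ, Finset.sum_apply, Pi.sub_apply]
    rw [← sum_sub_distrib]
    refine (abs_sum_le_sum_abs _ _).trans ((sum_le_sum (g := fun _ => 2 * ((q + 1) / B))
      fun i _ => ?_).trans (by simp))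
    have e1 := Tl_step γ hn hq.le (hb2 i) i (hξ i) h
    have e2 := Tl_step γ hn hq.le hb1 i (hξ i) h
    rw [abs_le] at e1 e2 ⊢
    constructor <;> linarith [e1.1, e1.2, e2.1, e2.2]
  have h3 := hL.2.1 _ Ψ (by positivity) (good_of_bounds γ fx hr hrB (by positivity) Ψ h1 h2 w) w
  have h4 : L Ψ w = ∑ i, (L (Tl γ q (update b i ((b i).1, (b i).2 + B)) i (ξ i)) w -
      L (Tl γ q b i (ξ i)) w) := by
    simp [Ψ]
  rw [← h4]
  have h5 := h1 fun i => att γ fx (w i)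
  rw [abs_le] at h3 h5
  linarith [h3.2, h5.2]

theorem label {r lam q : ℝ} {L : ((Fin n → Pt Z B) → ℝ) →ₗ[ℝ] ((Fin n → Pt Z B) → ℝ)}
    (hL : SmProp γ fx r lam L) (hn : 0 < n) (hq : 0 < q) (hr : 0 < r) {c : Z → ℝ}
    (hfx : ∀ g z, γ g (fx z) = fx z) (hc : ∀ z, c (fx z) = c z) (hc1 : ∀ z, |c z| ≤ 1)
    {b : Fin n → Fin 4 × ℕ} (hb : ∀ j, (b j).2 ≤ 24 * B) {i : Fin n} {g : Fin 4}
    (hi : b i = (g, 0)) {w : Fin n → Pt Z B} (hw : ∀ j, dd (b j) (w j).2 ≤ B) :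
    |L (Tl γ q b i c) w - c (vtx γ (w i))| ≤ 3 * lam * r * ((q + 1) / B) := by
  have hB : (0 : ℝ) < B := by exact_mod_cast NeZero.pos B
  have h3 : ∀ u : Fin n → Pt Z B, Tl γ q b i c (fun i => att γ fx (u i)) = Tl γ q b i c u := by
    intro u
    simp only [Tl_apply, al, hi, lab_zero, vtx_att γ fx hfx, hc]
    rfl
  have h1 := hL.2.1 ((q + 1) / B) (Tl γ q b i c) (by positivity)
    (good_of_att γ fx hr.le (by positivity) _ (fun u => (Tl_abs γ hq.le b i hc1 u).trans (by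
      field_simp; linarith)) (fun _ _ h => Tl_step γ hn hq.le hb i hc1 h) h3) w
  rw [h3, Tl_apply, chi_one q hw, al, om_one (by have := hw i; omega), hi, lab_zero] at h1
  simpa using h1

end

end Vale.Agent.P090
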